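import Vale.Agent.P296Z.Lin
import Vale.Agent.P296.H354.Main

/-!
# P296Z: the Chern curvature in terms of second derivatives of the Gram matrix
-/

set_option linter.all false

noncomputable section

namespace Vale.Agent.P296Z

open Bundle Matrix Filter Set Complex
open scoped Manifold ContDiff Topology ComplexOrder

variable {n r : ℕ}

theorem delbar_congr {f g : Cn n → ℂ} {z : Cn n} (h : f =ᶠ[𝓝 z] g) (ξ : Cn n) :
    delbar f ξ z = delbar g ξ z := by
  unfold delbar; rw [h.fderiv_eq]

theorem delbar_mul {f g : Cn n → ℂ} {z : Cn n} (hf : DifferentiableAt ℝ f z)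
    (hg : DifferentiableAt ℝ g z) (ξ : Cn n) :
    delbar (fun y => f y * g y) ξ z = delbar f ξ z * g z + f z * delbar g ξ z := by
  unfold delbar
  rw [fderiv_fun_mul hf hg]
  simp only [ContinuousLinearMap.add_apply, ContinuousLinearMap.smul_apply, smul_eq_mul]
  ring

theorem delbar_sum {f : Fin r → Cn n → ℂ} {z : Cn n} (hf : ∀ c, DifferentiableAt ℝ (f c) z)
    (ξ : Cn n) : delbar (fun y => ∑ c, f c y) ξ z = ∑ c, delbar (f c) ξ z := by
  unfold delbar
  rw [fderiv_fun_sum fun c _ => hf c]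
  simp only [ContinuousLinearMap.sum_apply]
  rw [Finset.mul_sum, ← Finset.sum_add_distrib, Finset.sum_div]

theorem star_del {f : Cn n → ℂ} {z : Cn n} (hf : DifferentiableAt ℝ f z) (ξ : Cn n) :
    star (del f ξ z) = delbar (fun y => star (f y)) ξ z := by
  have h : HasFDerivAt (fun y => star (f y))
      ((Complex.conjCLE : ℂ →L[ℝ] ℂ).comp (fderiv ℝ f z)) z :=
    (Complex.conjCLE : ℂ →L[ℝ] ℂ).hasFDerivAt.comp z hf.hasFDerivAt
  unfold del delbar
  rw [h.fderiv]
  simp [div_eq_mul_inv]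

theorem hasFDerivAt_del {f : Cn n → ℂ} {z : Cn n} (hf : ContDiffAt ℝ 2 f z) (ξ : Cn n) :
    HasFDerivAt (del f ξ) ((2⁻¹ : ℂ) • (fderiv ℝ (fun w => fderiv ℝ f w ξ) z -
      I • fderiv ℝ (fun w => fderiv ℝ f w (I • ξ)) z)) z := by
  have hd := P296.ContDiffAt.diff_fderiv hf
  have h1 : HasFDerivAt (fun w => fderiv ℝ f w ξ) (fderiv ℝ (fun w => fderiv ℝ f w ξ) z) z :=
    (hd.clm_apply (differentiableAt_const ξ)).hasFDerivAt
  have h2 : HasFDerivAt (fun w => fderiv ℝ f w (I • ξ))
      (fderiv ℝ (fun w => fderiv ℝ f w (I • ξ)) z) z :=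
    (hd.clm_apply (differentiableAt_const (I • ξ))).hasFDerivAt
  have h4 := (h1.sub (h2.const_smul I)).const_smul (2⁻¹ : ℂ)
  refine h4.congr_of_eventuallyEq (Filter.Eventually.of_forall fun w => ?_)
  simp only [del, Pi.sub_apply, Pi.smul_apply, smul_eq_mul]
  ring

theorem delbar_del {f : Cn n → ℂ} {z : Cn n} (hf : ContDiffAt ℝ 2 f z) (ξ : Cn n) :
    delbar (del f ξ) ξ z = P296.levi f z ξ := by
  have hd := P296.ContDiffAt.diff_fderiv hf
  have hs : fderiv ℝ (fderiv ℝ f) z ξ (I • ξ) = fderiv ℝ (fderiv ℝ f) z (I • ξ) ξ :=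
    (hf.isSymmSndFDerivAt (by simp)) ξ (I • ξ)
  unfold delbar
  rw [(hasFDerivAt_del hf ξ).fderiv, P296.levi_eq', Complex.real_smul]
  simp only [ContinuousLinearMap.smul_apply, ContinuousLinearMap.sub_apply, smul_eq_mul,
    ← P296.fderiv2_apply hd]
  rw [hs]
  push_cast
  linear_combination (-(fderiv ℝ (fderiv ℝ f) z (I • ξ) (I • ξ)) / 4) * I_mul_I

/-- `H Θ = (∂H)* H⁻¹ ∂H - ∂∂̄H`. -/
theorem curvature_eq {H : Cn n → Matrix (Fin r) (Fin r) ℂ} {U : Set (Cn n)} (hU : IsOpen U)
    (hs : ∀ a b, ContDiffOn ℝ ∞ (fun y => H y a b) U) (hp : ∀ y ∈ U, (H y).PosDef) {z : Cn n}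
    (hz : z ∈ U) (ξ : Cn n) (v : Cn r) :
    star v ⬝ᵥ H z *ᵥ curvature H ξ z *ᵥ v = P296.chernCurvature H z ξ v := by
  have hU' := hU.mem_nhds hz
  have h2 : ∀ a b, ContDiffAt ℝ 2 (fun y => H y a b) z := fun a b =>
    ((hs a b).contDiffAt hU').of_le (by norm_cast)
  have h1 : ∀ a b, DifferentiableAt ℝ (fun y => H y a b) z := fun a b =>
    (h2 a b).differentiableAt (by norm_num)
  have hinv : ∀ a b, DifferentiableAt ℝ (fun y => (H y)⁻¹ a b) z := fun a b =>
    ((P296.H354.contDiffOn_inv_entry hs (fun y hy =>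
      (P296.H354.posDef_isUnit_det (hp y hy)).ne_zero) a b).contDiffAt hU').differentiableAt
      (by simp)
  have hC : ∀ c b, DifferentiableAt ℝ (fun y => connection H ξ y c b) z := by
    intro c b
    simp only [connection, Matrix.mul_apply, Matrix.of_apply]
    exact DifferentiableAt.fun_sum fun d _ =>
      (hinv c d).mul (hasFDerivAt_del (h2 d b) ξ).differentiableAt
  have hHC : ∀ a b, (fun y => ∑ c, H y a c * connection H ξ y c b) =ᶠ[𝓝 z]
      del (fun y => H y a b) ξ := by
    intro a b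
    filter_upwards [hU'] with y hy
    have h3 : H y * connection H ξ y = Matrix.of fun a b => del (fun y => H y a b) ξ y := by
      unfold connection
      rw [← Matrix.mul_assoc, Matrix.mul_nonsing_inv _ (P296.H354.posDef_isUnit_det (hp y hy)),
        Matrix.one_mul]
    exact congrFun (congrFun h3 a) b
  have hbar : ∀ a c, star (del (fun y => H y c a) ξ z) = delbar (fun y => H y a c) ξ z := by
    intro a c
    rw [star_del (h1 c a)]
    refine delbar_congr ?_ ξ
    filter_upwards [hU'] with y hy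
    exact (hp y hy).isHermitian.apply a c
  have key : H z * curvature H ξ z =
      (Matrix.of fun a b => del (fun y => H y a b) ξ z)ᴴ * (H z)⁻¹ *
        (Matrix.of fun a b => del (fun y => H y a b) ξ z) -
        Matrix.of fun a b => P296.levi (fun y => H y a b) z ξ := by
    ext a b
    have h3 := delbar_congr (hHC a b) ξ
    rw [delbar_del (h2 a b), delbar_sum (f := fun c y => H y a c * connection H ξ y c b)
      fun c => (h1 a c).mul (hC c b)] at h3
    simp only [delbar_mul (h1 a _) (hC _ b)] at h3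
    rw [Matrix.mul_assoc, Matrix.sub_apply, Matrix.of_apply, ← h3, Matrix.mul_apply,
      Matrix.mul_apply, ← Finset.sum_sub_distrib]
    refine Finset.sum_congr rfl fun c _ => ?_
    rw [Matrix.conjTranspose_apply, Matrix.of_apply, hbar]
    change H z a c * -delbar _ ξ z = _ * connection H ξ z c b - _
    ring
  rw [Matrix.mulVec_mulVec, key]
  rfl

theorem chernCurvature_congr {H H' : Cn n → Matrix (Fin r) (Fin r) ℂ} {z : Cn n}
    (h : H =ᶠ[𝓝 z] H') (ξ : Cn n) (v : Cn r) :
    P296.chernCurvature H z ξ v = P296.chernCurvature H' z ξ v := by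
  have h1 : ∀ a b, (fun w => H w a b) =ᶠ[𝓝 z] fun w => H' w a b := fun a b =>
    h.mono fun w hw => by simp only [hw]
  unfold P296.chernCurvature P296.dHol
  simp only [(h1 _ _).fderiv_eq, P296.levi_congr (h1 _ _), h.eq_of_nhds]

section gram

variable {X : Type} [TopologicalSpace X]
  {E : X → Type} [∀ x, AddCommGroup (E x)] [∀ x, Module ℂ (E x)] [∀ x, TopologicalSpace (E x)]
  [TopologicalSpace (TotalSpace (Cn r) E)] [FiberBundle (Cn r) E] [VectorBundle ℂ (Cn r) E]

/-- the Gram matrix at a point of the base -/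
def gr (h : ∀ x, E x →ₗ⋆[ℂ] E x →ₗ[ℂ] ℂ) (t : Trivialization (Cn r) (π (Cn r) E)) (x : X) :
    Matrix (Fin r) (Fin r) ℂ :=
  Matrix.of fun a b => h x (frame t x a) (frame t x b)

variable {t t' : Trivialization (Cn r) (π (Cn r) E)} [MemTrivializationAtlas t]
  [MemTrivializationAtlas t'] {x : X}

theorem frame_change (hx : x ∈ t.baseSet) (hx' : x ∈ t'.baseSet) (a : Fin r) :
    frame t' x a = ∑ b, tm t t' x b a • frame t x b := by
  rw [← sum_frame hx (frame t' x a)]
  refine Finset.sum_congr rfl fun b _ => ?_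
  congr 1
  simp only [tm, Matrix.of_apply]
  rw [ContinuousLinearEquiv.coe_coe, Trivialization.coordChangeL_apply _ _ ⟨hx', hx⟩,
    Trivialization.coe_linearMapAt_of_mem _ hx]
  rfl

theorem gr_change (h : ∀ x, E x →ₗ⋆[ℂ] E x →ₗ[ℂ] ℂ) (hx : x ∈ t.baseSet) (hx' : x ∈ t'.baseSet) :
    gr h t' x = (tm t t' x)ᴴ * gr h t x * tm t t' x := by
  ext a b
  simp only [gr, Matrix.of_apply, Matrix.mul_apply, Matrix.conjTranspose_apply]
  rw [frame_change hx hx' a, frame_change hx hx' b]
  simp only [map_sum, map_smulₛₗ, LinearMap.sum_apply, LinearMap.smul_apply, smul_eq_mul,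
    Finset.sum_mul, RingHom.id_apply, Finset.mul_sum]
  refine Finset.sum_congr rfl fun c _ => Finset.sum_congr rfl fun d _ => ?_
  rw [starRingEnd_apply]
  ring

theorem gr_posDef {h : ∀ x, E x →ₗ⋆[ℂ] E x →ₗ[ℂ] ℂ} (herm : ∀ v w, h x w v = star (h x v w))
    (pos : ∀ v, v ≠ 0 → 0 < (h x v v).re) (hx : x ∈ t.baseSet) : (gr h t x).PosDef := by
  refine Matrix.PosDef.of_dotProduct_mulVec_pos ?_ fun v hv => ?_
  · ext a b
    simp only [gr, Matrix.conjTranspose_apply, Matrix.of_apply]
    exact (herm _ _).symm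
  · have h1 : star v ⬝ᵥ gr h t x *ᵥ v =
        h x (∑ a, v a • frame t x a) (∑ a, v a • frame t x a) := by
      simp only [map_sum, map_smulₛₗ, LinearMap.sum_apply, LinearMap.smul_apply, smul_eq_mul,
        RingHom.id_apply, Finset.mul_sum, dotProduct, Matrix.mulVec, gr, Matrix.of_apply,
        Pi.star_apply]
      rw [Finset.sum_comm]
      refine Finset.sum_congr rfl fun c _ => Finset.sum_congr rfl fun d _ => ?_
      rw [starRingEnd_apply]
      ring
    have h2 : (∑ a, v a • frame t x a) ≠ 0 := by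
      intro h0
      apply hv
      have h3 := congrArg (t.linearMapAt ℂ x) h0
      simp only [map_sum, map_smul, map_zero, frame, Trivialization.linearMapAt_symm _ hx] at h3
      rw [← h3]
      funext b
      simp [Finset.sum_apply, Pi.single_apply]
    rw [h1, Complex.pos_iff]
    refine ⟨pos _ h2, ?_⟩
    have h4 := congrArg Complex.im (herm (∑ a, v a • frame t x a) (∑ a, v a • frame t x a))
    rw [Complex.star_def, Complex.conj_im] at h4
    linarith

end gram

end Vale.Agent.P296Z
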