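import Vale.Agent.P296Z.Torus
import Vale.Agent.P296Z.Curv

/-!
# P296Z: bundles on the torus given by transition matrices, as Mathlib vector bundles
-/

set_option linter.all false

noncomputable section

namespace Vale.Agent.P296Z

open Bundle Matrix Filter Set Metric
open scoped Manifold ContDiff Topology ComplexOrder
open Vale.Agent.P272.K

variable {n r : ℕ}

theorem ch_sub_eventually {z0 z1 : Cn n} {x : Tor n} (h0 : x ∈ (ch z0).source)
    (h1 : x ∈ (ch z1).source) : ∀ᶠ y in 𝓝 x, ch z1 y - ch z0 y = ch z1 x - ch z0 x := by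
  have h2 : pr (ch z0 x) ∈ (ch z1).source := by rw [pr_ch h0]; exact h1
  filter_upwards [((ch z0).continuousAt h0).eventually (ch_pr_eventually h2),
    (ch z0).open_source.mem_nhds h0] with y hy hy'
  have h3 := hy.2
  rw [pr_ch hy', pr_ch h0] at h3
  rw [h3]
  abel

theorem ch_sub_mem {z0 z1 : Cn n} {x : Tor n} (h0 : x ∈ (ch z0).source)
    (h1 : x ∈ (ch z1).source) : ch z1 x - ch z0 x ∈ P296.gaussLattice n :=
  pr_eq.1 ((pr_ch h0).trans (pr_ch h1).symm)

variable (A : P296.TorusBundle (P296.gaussLattice n) r)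

/-- the domains of the trivializations -/
def bs (α : A.ι × Cn n) : Set (Tor n) := (ch α.2).source ∩ ch α.2 ⁻¹' A.U α.1

/-- the transition matrices -/
def gm (β α : A.ι × Cn n) (x : Tor n) : Matrix (Fin r) (Fin r) ℂ :=
  A.g β.1 α.1 (ch β.2 x - ch α.2 x) (ch α.2 x)

/-- a matrix as a continuous linear map -/
def mcl (M : Matrix (Fin r) (Fin r) ℂ) : Cn r →L[ℂ] Cn r :=
  LinearMap.toContinuousLinearMap (Matrix.toLin' M)

theorem mcl_apply (M : Matrix (Fin r) (Fin r) ℂ) (v : Cn r) : mcl M v = M *ᵥ v := rfl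

theorem pr_mem_bs {i : A.ι} {z : Cn n} (hz : z ∈ A.U i) : pr z ∈ bs A (i, z) :=
  ⟨pr_mem_self z, by
    change ch z (pr z) ∈ A.U i
    rw [ch_pr_self]; exact hz⟩

theorem exists_bs (x : Tor n) : ∃ α, x ∈ bs A α := by
  obtain ⟨z, rfl⟩ := pr_surjective x
  obtain ⟨i, l, hl, h⟩ := A.cover z
  have h1 : pr z = pr (z + l) := by rw [pr_eq, add_sub_cancel_left]; exact hl
  exact ⟨(i, z + l), h1 ▸ pr_mem_bs A h⟩

theorem contMDiffOn_gm (α β : A.ι × Cn n) :
    ContMDiffOn 𝓘(ℂ, Cn n) 𝓘(ℂ, Cn r →L[ℂ] Cn r) ω (fun x => mcl (gm A β α x))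
      (bs A α ∩ bs A β) := by
  rintro x ⟨hα, hβ⟩
  set l := ch β.2 x - ch α.2 x with hl
  have hl' : l ∈ P296.gaussLattice n := ch_sub_mem hα.1 hβ.1
  have hW : IsOpen {z | z ∈ A.U α.1 ∧ z + l ∈ A.U β.1} :=
    (A.isOpen_U _).inter ((A.isOpen_U _).preimage (continuous_id.add continuous_const))
  have hx : ch α.2 x ∈ {z | z ∈ A.U α.1 ∧ z + l ∈ A.U β.1} := by
    refine ⟨hα.2, ?_⟩
    rw [hl, add_sub_cancel]
    exact hβ.2
  have h1 : ContDiffOn ℂ ω (fun z => mcl (A.g β.1 α.1 l z)) {z | z ∈ A.U α.1 ∧ z + l ∈ A.U β.1} := by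
    rw [contDiffOn_clm_apply]
    intro v
    refine contDiffOn_pi.2 fun a => ?_
    simp only [mcl_apply, Matrix.mulVec, dotProduct]
    refine ContDiffOn.sum fun b _ => ContDiffOn.mul (fun z hz => ?_) contDiffOn_const
    exact (P268.analyticAt_of_differentiableOn hW (A.holo _ _ l hl' a b)
      hz).contDiffAt.contDiffWithinAt
  have h2 := (h1.contDiffAt (hW.mem_nhds hx)).contMDiffAt.comp x
    (chart_contMDiffAt (e := ch α.2) ⟨ch_mem _, hα.1⟩)
  refine (h2.congr_of_eventuallyEq ?_).contMDiffWithinAt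
  filter_upwards [ch_sub_eventually hα.1 hβ.1] with y hy
  simp only [gm, Function.comp, hy, hl]

/-- the vector bundle core -/
def vbc : VectorBundleCore ℂ (Tor n) (Cn r) (A.ι × Cn n) where
  baseSet := bs A
  isOpen_baseSet α := (ch α.2).isOpen_inter_preimage (A.isOpen_U _)
  indexAt x := (exists_bs A x).choose
  mem_baseSet_at x := (exists_bs A x).choose_spec
  coordChange α β x := mcl (gm A β α x)
  coordChange_self α x hx v := by
    rw [mcl_apply, gm, sub_self, A.g_self _ _ hx.2, Matrix.one_mulVec]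
  continuousOn_coordChange α β := (contMDiffOn_gm A α β).continuousOn
  coordChange_comp α β γ x hx v := by
    obtain ⟨⟨hα, hβ⟩, hγ⟩ := hx
    have h1 := A.cocycle γ.1 β.1 α.1 _ (ch_sub_mem hβ.1 hγ.1) _ (ch_sub_mem hα.1 hβ.1) _ hα.2
      (by rw [add_sub_cancel]; exact hβ.2) (by rw [add_sub_cancel, add_sub_cancel]; exact hγ.2)
    rw [add_sub_cancel, sub_add_sub_cancel] at h1
    simp only [mcl_apply, Matrix.mulVec_mulVec, gm, h1]

instance instCoreSmooth : (vbc A).IsContMDiff 𝓘(ℂ, Cn n) ω := ⟨contMDiffOn_gm A⟩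

instance instCoreAtlas (α : A.ι × Cn n) : MemTrivializationAtlas ((vbc A).localTriv α) :=
  ⟨⟨α, rfl⟩⟩

theorem tm_core {α β : A.ι × Cn n} {x : Tor n} (hα : x ∈ bs A α) (hβ : x ∈ bs A β) :
    tm ((vbc A).localTriv β) ((vbc A).localTriv α) x = gm A β α x := by
  ext a b
  simp only [tm, Matrix.of_apply]
  rw [ContinuousLinearEquiv.coe_coe, (vbc A).localTriv_coordChange_eq α β ⟨hα, hβ⟩]
  change (gm A β α x *ᵥ Pi.single b 1) a = _
  simp

section finsler

variable {A} (M : P296.FinslerMetric A)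

/-- the Finsler metric as a function on the dual bundle -/
def fins (x : Tor n) (l : Module.Dual ℂ ((vbc A).Fiber x)) : ℝ :=
  M.F ((vbc A).indexAt x).1 (ch ((vbc A).indexAt x).2 x,
    co ((vbc A).localTriv ((vbc A).indexAt x)) x l)

theorem fins_covec {β : A.ι × Cn n} {x : Tor n} (hβ : x ∈ bs A β) {u : Cn r} (hu : u ≠ 0) :
    fins M x (covec ((vbc A).localTriv β) x u) = M.F β.1 (ch β.2 x, u) := by
  have hα : x ∈ bs A ((vbc A).indexAt x) := (vbc A).mem_baseSet_at x
  unfold fins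
  rw [co_covec (t := (vbc A).localTriv β) hβ hα, tm_core A hα hβ, gm,
    M.compat _ _ _ (ch_sub_mem hα.1 hβ.1) _ hα.2 (by rw [add_sub_cancel]; exact hβ.2) u hu,
    add_sub_cancel]

theorem loc_fins {β : A.ι × Cn n} {z0 z : Cn n} (hz : z ∈ dom (ch z0) ((vbc A).localTriv β))
    {u : Cn r} (hu : u ≠ 0) : loc (fins M) (ch z0) ((vbc A).localTriv β) =ᶠ[𝓝 (z, u)]
      fun p => M.F β.1 (p + (ch β.2 (pr z) - z, 0)) := by
  have hβ : pr z ∈ bs A β := hz.2
  have e1 : ∀ᶠ p : Cn n × Cn r in 𝓝 (z, u), p.1 ∈ dom (ch z0) ((vbc A).localTriv β) :=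
    continuous_fst.continuousAt.eventually_mem ((isOpen_dom _ _).mem_nhds hz)
  have e2 : ∀ᶠ p : Cn n × Cn r in 𝓝 (z, u), p.2 ≠ 0 := continuous_snd.continuousAt.eventually_ne hu
  have e3 := (continuous_fst.continuousAt (x := (z, u))).eventually (ch_pr_eventually hβ.1)
  filter_upwards [e1, e2, e3] with p h1 h2 h3
  have h4 : pr p.1 ∈ bs A β := h1.2
  change fins M (pr p.1) (covec ((vbc A).localTriv β) (pr p.1) p.2) = _
  rw [fins_covec M h4 h2, h3.2]
  congr 1
  exact Prod.ext rfl (add_zero _).symm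

end finsler

theorem isAmple_core {q : ℕ} {A : P296.TorusBundle (P296.gaussLattice n) (q + 1)}
    (h : A.IsAmple) : IsAmple n (q + 1) (vbc A).Fiber := by
  obtain ⟨M, hM⟩ := h
  have hsm : ∀ (β : A.ι × Cn n) (z : Cn n), pr z ∈ bs A β → ∀ u : Cn (q + 1), u ≠ 0 →
      ContDiffAt ℝ ∞ (M.F β.1) ((z, u) + (ch β.2 (pr z) - z, 0)) := by
    intro β z hz u hu
    have hopen : IsOpen {p : Cn n × Cn (q + 1) | p.1 ∈ A.U β.1 ∧ p.2 ≠ 0} :=
      ((A.isOpen_U _).preimage continuous_fst).inter (isOpen_ne.preimage continuous_snd)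
    refine (M.smooth β.1).contDiffAt (hopen.mem_nhds ?_)
    rw [Prod.mk_add_mk, add_sub_cancel, add_zero]
    exact ⟨hz.2, hu⟩
  refine isAmple_of_ample (ample_taut (fins M) ?_ ?_ ?_ ?_)
  · intro x l hl
    have hα : x ∈ bs A ((vbc A).indexAt x) := (vbc A).mem_baseSet_at x
    exact M.pos _ _ hα.2 _ (co_ne_zero (t := (vbc A).localTriv _) hα hl)
  · intro x l a hl ha
    have hα : x ∈ bs A ((vbc A).indexAt x) := (vbc A).mem_baseSet_at x
    unfold fins
    rw [co_smul]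
    exact M.homog _ _ hα.2 _ (co_ne_zero (t := (vbc A).localTriv _) hα hl) a ha
  · rintro _ ⟨z0, rfl⟩ _ ⟨β, rfl⟩ z hz u hu
    refine ContDiffAt.congr_of_eventuallyEq ?_ (loc_fins M hz hu)
    exact ContDiffAt.comp (g := M.F β.1) (z, u) (hsm β z hz.2 u hu)
      (contDiffAt_id.add contDiffAt_const)
  · rintro _ ⟨z0, rfl⟩ _ ⟨β, rfl⟩ z hz u hu ξ w hw
    have hβ : pr z ∈ bs A β := hz.2
    have h1 := (loc_fins M hz hu).fun_comp Real.log
    have h2 : ((z, u) : Cn n × Cn (q + 1)) + (ch β.2 (pr z) - z, 0) = (ch β.2 (pr z), u) := by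
      rw [Prod.mk_add_mk, add_sub_cancel, add_zero]
    have h3 : ContDiffAt ℝ 2 (fun p => Real.log (M.F β.1 p))
        (((z, u) : Cn n × Cn (q + 1)) + (ch β.2 (pr z) - z, 0)) := by
      refine ((hsm β z hβ u hu).of_le (by norm_cast)).log ?_
      rw [h2]
      exact (M.pos _ _ hβ.2 u hu).ne'
    have h4 := P296.levi_comp_hol (f := fun p => Real.log (M.F β.1 p))
      (Θ := fun p : Cn n × Cn (q + 1) => p + (ch β.2 (pr z) - z, 0)) (p := (z, u)) h3
      (contDiffAt_id.add contDiffAt_const) (ξ, w)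
    rw [fderiv_add_const, fderiv_id', h2] at h4
    refine lt_of_lt_of_eq (hM β.1 _ hβ.2 u hu ξ w hw) (h4.symm.trans ?_)
    exact (P296.levi_congr h1 _).symm

section herm

variable {A} (H : HermitianMetric n r (vbc A).Fiber)

/-- the metric as a sesquilinear map -/
def sesq (x : Tor n) : (vbc A).Fiber x →ₗ⋆[ℂ] (vbc A).Fiber x →ₗ[ℂ] ℂ :=
  LinearMap.mk₂'ₛₗ (starRingEnd ℂ) (RingHom.id ℂ) (H.h x)
    (fun v v' w => by rw [H.herm x w (v + v'), H.add, star_add, ← H.herm, ← H.herm])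
    (fun a v w => by rw [H.herm x w (a • v), H.smul, star_mul', ← H.herm]; rfl)
    (fun v w w' => H.add x v w w') (fun a v w => H.smul x v w a)

theorem gr_eventually {i : A.ι} {z : Cn n} (hz : z ∈ A.U i) :
    (fun w => gr (sesq H) ((vbc A).localTriv (i, w)) (pr w)) =ᶠ[𝓝 z]
      gram H.h (ch z) ((vbc A).localTriv (i, z)) := by
  filter_upwards [ball_mem_nhds z (by norm_num : (0 : ℝ) < 1 / 4), (A.isOpen_U i).mem_nhds hz]
    with w h1 h2
  have h3 : pr w ∈ bs A (i, z) := ⟨pr_mem_source h1, by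
    change ch z (pr w) ∈ A.U i
    rw [ch_pr h1]; exact h2⟩
  have h4 : gm A (i, z) (i, w) (pr w) = 1 := by
    unfold gm
    rw [ch_pr h1, ch_pr_self, sub_self, A.g_self i w h2]
  rw [gr_change (t := (vbc A).localTriv (i, z)) (sesq H) h3 (pr_mem_bs A h2),
    tm_core A (pr_mem_bs A h2) h3, h4, Matrix.conjTranspose_one, Matrix.one_mul, Matrix.mul_one]
  rfl

theorem mem_dom_self {i : A.ι} {z : Cn n} (hz : z ∈ A.U i) :
    z ∈ dom (ch z) ((vbc A).localTriv (i, z)) :=
  ⟨mem_ball_self (by norm_num), pr_mem_bs A hz⟩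

/-- the Gram matrices of a metric on the Mathlib bundle -/
def toMetric : P296.HermitianMetric A where
  h i w := gr (sesq H) ((vbc A).localTriv (i, w)) (pr w)
  smooth i a b z hz := by
    have h1 := (H.smooth (ch z) (ch_mem z) ((vbc A).localTriv (i, z)) a b).contDiffAt
      ((isOpen_dom _ _).mem_nhds (mem_dom_self hz))
    refine (h1.congr_of_eventuallyEq ?_).contDiffWithinAt
    filter_upwards [gr_eventually H hz] with w hw
    rw [hw]
  posDef i z hz := gr_posDef (h := sesq H) (H.herm _) (H.pos _) (pr_mem_bs A hz)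
  compat i j l hl z hz hzl := by
    have h1 : pr (z + l) = pr z := by
      symm; rw [pr_eq, add_sub_cancel_left]; exact hl
    have h2 : pr z ∈ bs A (i, z + l) := h1 ▸ pr_mem_bs A hzl
    have h3 : gm A (i, z + l) (j, z) (pr z) = A.g i j l z := by
      unfold gm
      rw [ch_pr_self, ← h1, ch_pr_self, add_sub_cancel_left]
    rw [h1, gr_change (t := (vbc A).localTriv (i, z + l)) (sesq H) h2 (pr_mem_bs A hz),
      tm_core A (pr_mem_bs A hz) h2, h3]

theorem griffiths_toMetric (h : H.GriffithsPositive) : (toMetric H).GriffithsPositive := by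
  intro i z hz ξ hξ v hv
  have h1 := h (ch z) (ch_mem z) ((vbc A).localTriv (i, z)) z (mem_dom_self hz) ξ hξ v hv
  rw [curvature_eq (isOpen_dom _ _) (H.smooth (ch z) (ch_mem z) ((vbc A).localTriv (i, z)))
    (fun y hy => gr_posDef (h := sesq H) (H.herm _) (H.pos _) hy.2) (mem_dom_self hz)] at h1
  rw [← chernCurvature_congr (gr_eventually H hz)] at h1
  exact h1

end herm

theorem not_griffiths (s : ℕ) : ¬ GriffithsConjecture 2 (2 + s) := by
  intro h
  obtain ⟨ε, h0, hε⟩ := P296.H354.big_no_griffiths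
  have hA := P296.H354.big_isAmple h0 0 s
  have hN := hε ε h0 le_rfl 0 s
  generalize P296.H354.ext (P296.bundle ε h0) 0 s = A at hA hN
  obtain ⟨q, hq⟩ : ∃ q, 2 + s = q + 1 := ⟨1 + s, by omega⟩
  revert h A
  rw [hq]
  intro h A hA hN
  obtain ⟨H, hH⟩ := h (Tor 2) isSmoothProjective_tor (vbc A).Fiber (isAmple_core hA)
  exact hN (toMetric H) (griffiths_toMetric H hH)

end Vale.Agent.P296Z
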