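import Mathlib.Geometry.Manifold.VectorBundle.Basic
import Mathlib.LinearAlgebra.Projectivization.Basic
import Mathlib.RingTheory.MvPolynomial.Homogeneous
import Mathlib.Algebra.MvPolynomial.PDeriv
import Mathlib.LinearAlgebra.Matrix.NonsingularInverse
import Mathlib.LinearAlgebra.Dual.Defs
import Mathlib.Analysis.Complex.Basic

/-!
# P296 (Griffiths' positivity conjecture): the question for smooth projective varieties

`X` is a complex manifold modelled on `ℂⁿ` and `E` is a holomorphic vector bundle of rank `r` on `X`,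
both in the sense of Mathlib.
-/

noncomputable section

namespace Vale.Agent.P296Z

open Bundle Matrix
open scoped Manifold ContDiff LinearAlgebra.Projectivization

/-- `ℂⁿ`. -/
abbrev Cn (n : ℕ) : Type := Fin n → ℂ

/-- The kernel of the Jacobian matrix `(∂P/∂z_b (z))` of the polynomials `P ∈ S`. -/
def jacobianKernel {N : ℕ} (S : Set (MvPolynomial (Fin N) ℂ)) (z : Cn N) : Submodule ℂ (Cn N) :=
  ⨅ P ∈ S, LinearMap.ker
    (∑ b, MvPolynomial.eval z (MvPolynomial.pderiv b P) • (LinearMap.proj b : Cn N →ₗ[ℂ] ℂ))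

/-- `Z ⊆ ℙᴺ` is a nonsingular algebraic set of dimension `n`: it is the set of common zeros of a set
`S` of homogeneous polynomials whose Jacobian matrix has rank `N - n` at all points of `Z`
(Jacobian criterion). -/
def IsNonsingularAlgebraic (n : ℕ) {N : ℕ} (Z : Set (ℙ ℂ (Cn (N + 1)))) : Prop :=
  ∃ S : Set (MvPolynomial (Fin (N + 1)) ℂ), (∀ P ∈ S, ∃ k, P.IsHomogeneous k) ∧
    ∀ (z : Cn (N + 1)) (hz : z ≠ 0),
      (Projectivization.mk ℂ z hz ∈ Z ↔ ∀ P ∈ S, MvPolynomial.eval z P = 0) ∧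
      (Projectivization.mk ℂ z hz ∈ Z → Module.finrank ℂ (jacobianKernel S z) = n + 1)

/-- `Φ : X → ℙᴺ` is a holomorphic immersion: in a chart around every point it is given by
holomorphic homogeneous coordinates `s` whose differential maps no nonzero tangent vector to a
multiple of `s`. -/
def IsHolomorphicImmersion (n : ℕ) {X : Type} [TopologicalSpace X] [ChartedSpace (Cn n) X] {N : ℕ}
    (Φ : X → ℙ ℂ (Cn (N + 1))) : Prop :=
  ∀ x : X, ∃ c ∈ atlas (Cn n) X, ∃ (W : Set (Cn n)) (s : Cn n → Cn (N + 1)),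
    x ∈ c.source ∧ c x ∈ W ∧ IsOpen W ∧ W ⊆ c.target ∧ DifferentiableOn ℂ s W ∧
    ∀ z ∈ W, (∃ h : s z ≠ 0, Φ (c.symm z) = Projectivization.mk ℂ (s z) h) ∧
      ∀ (v : Cn n) (a : ℂ), fderiv ℂ s z v = a • s z → v = 0

/-- The complex manifold `X` of dimension `n` is a smooth projective variety: an injective
holomorphic immersion maps it onto a nonsingular algebraic subset of dimension `n` of `ℙᴺ`. -/
def IsSmoothProjective (n : ℕ) (X : Type) [TopologicalSpace X] [ChartedSpace (Cn n) X] : Prop :=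
  ∃ (N : ℕ) (Φ : X → ℙ ℂ (Cn (N + 1))), Function.Injective Φ ∧ IsHolomorphicImmersion n Φ ∧
    IsNonsingularAlgebraic n (Set.range Φ)

/-- `∂_ξ f (z) = ∑ ξ_k ∂f/∂z_k`. -/
def del {n : ℕ} (f : Cn n → ℂ) (ξ z : Cn n) : ℂ :=
  (fderiv ℝ f z ξ - Complex.I * fderiv ℝ f z (Complex.I • ξ)) / 2

/-- `∂̄_ξ f (z) = ∑ ξ̄_k ∂f/∂z̄_k`. -/
def delbar {n : ℕ} (f : Cn n → ℂ) (ξ z : Cn n) : ℂ :=
  (fderiv ℝ f z ξ + Complex.I * fderiv ℝ f z (Complex.I • ξ)) / 2

/-- The connection matrix `H⁻¹ ∂_ξ H` of the Chern connection `D = d + H⁻¹ ∂H` of a Hermitian metric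
with Gram matrix `H` in a holomorphic frame. -/
def connection {n r : ℕ} (H : Cn n → Matrix (Fin r) (Fin r) ℂ) (ξ z : Cn n) :
    Matrix (Fin r) (Fin r) ℂ :=
  (H z)⁻¹ * Matrix.of fun a b => del (fun y => H y a b) ξ z

/-- The curvature `D² = ∂̄ (H⁻¹ ∂H) = ∑ Θ_jk dz_j ∧ dz̄_k` of the Chern connection in the direction
`ξ`: the matrix `∑ ξ_j ξ̄_k Θ_jk = -∂̄_ξ (H⁻¹ ∂_ξ H)`. -/
def curvature {n r : ℕ} (H : Cn n → Matrix (Fin r) (Fin r) ℂ) (ξ z : Cn n) :
    Matrix (Fin r) (Fin r) ℂ :=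
  Matrix.of fun a b => -delbar (fun y => connection H ξ y a b) ξ z

section bundle

variable {n r : ℕ} {X : Type} [TopologicalSpace X] [ChartedSpace (Cn n) X]
  {E : X → Type} [∀ x, AddCommGroup (E x)] [∀ x, Module ℂ (E x)] [∀ x, TopologicalSpace (E x)]
  [TopologicalSpace (TotalSpace (Cn r) E)] [FiberBundle (Cn r) E] [VectorBundle ℂ (Cn r) E]

/-- The points `z` of the coordinate domain of the chart `c` over which `t` trivializes `E`. -/
def dom (c : OpenPartialHomeomorph X (Cn n)) (t : Trivialization (Cn r) (π (Cn r) E)) :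
    Set (Cn n) :=
  {z | z ∈ c.target ∧ c.symm z ∈ t.baseSet}

/-- The holomorphic frame `e_1, …, e_r` of `E` given by the trivialization `t`. -/
def frame (t : Trivialization (Cn r) (π (Cn r) E)) (x : X) (a : Fin r) : E x :=
  t.symm x (Pi.single a 1)

/-- The linear form `∑ u_a e_a*` on the fibre `E x`, where `e_1*, …, e_r*` is the dual frame. -/
def covec (t : Trivialization (Cn r) (π (Cn r) E)) [MemTrivializationAtlas t] (x : X) (u : Cn r) :
    Module.Dual ℂ (E x) :=
  ∑ a, u a • (LinearMap.proj a ∘ₗ t.linearMapAt ℂ x)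

/-- The Gram matrix `(h(e_a, e_b))` of `h` in the chart `c` and the frame given by `t`. -/
def gram (h : ∀ x, E x → E x → ℂ) (c : OpenPartialHomeomorph X (Cn n))
    (t : Trivialization (Cn r) (π (Cn r) E)) (z : Cn n) : Matrix (Fin r) (Fin r) ℂ :=
  Matrix.of fun a b => h (c.symm z) (frame t (c.symm z) a) (frame t (c.symm z) b)

variable (n r E) in
/-- A smooth Hermitian metric on `E` (linear in the second argument). -/
structure HermitianMetric where
  h : ∀ x, E x → E x → ℂ
  add : ∀ x v w w', h x v (w + w') = h x v w + h x v w'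
  smul : ∀ x v w (a : ℂ), h x v (a • w) = a * h x v w
  herm : ∀ x v w, h x w v = star (h x v w)
  pos : ∀ x v, v ≠ 0 → 0 < (h x v v).re
  smooth : ∀ c ∈ atlas (Cn n) X, ∀ (t : Trivialization (Cn r) (π (Cn r) E))
    [MemTrivializationAtlas t], ∀ a b, ContDiffOn ℝ ∞ (fun z => gram h c t z a b) (dom c t)

/-- Strict Griffiths positivity: `⟨Θ(ξ, ξ̄) v, v⟩ > 0` for all nonzero `ξ` and `v`, at all points. -/
def HermitianMetric.GriffithsPositive (H : HermitianMetric n r E) : Prop :=
  ∀ c ∈ atlas (Cn n) X, ∀ (t : Trivialization (Cn r) (π (Cn r) E)) [MemTrivializationAtlas t],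
    ∀ z ∈ dom c t, ∀ ξ : Cn n, ξ ≠ 0 → ∀ v : Cn r, v ≠ 0 →
      0 < (star v ⬝ᵥ gram H.h c t z *ᵥ curvature (gram H.h c t) ξ z *ᵥ v).re

/-- A function on the dual bundle `E*`, read in the chart `c` and the dual frame given by `t`. -/
def loc {Y : Type} (s : ∀ x, Module.Dual ℂ (E x) → Y) (c : OpenPartialHomeomorph X (Cn n))
    (t : Trivialization (Cn r) (π (Cn r) E)) [MemTrivializationAtlas t] (p : Cn n × Cn r) : Y :=
  s (c.symm p.1) (covec t (c.symm p.1) p.2)

variable (n r E) in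
/-- `E` is ample: some power `O(m)`, `m ≥ 1`, of the tautological quotient line bundle `O(1)` on
`ℙ(E)` is very ample. A point of `ℙ(E)` over `x` is a one-dimensional quotient `u : E x → ℂ` up to a
scalar. A holomorphic section of `O(m)` is a holomorphic function on `E*` minus the zero section
which is homogeneous of degree `m` on the fibres. The sections `s_0, …, s_N` have no common zero
and `Φ = [s_0 : … : s_N]` is an injective immersion of the manifold `ℙ(E)` into `ℙᴺ`: the
differential of `s` maps a tangent vector `(ξ, w)` of `E*` at `(z, u)` to a multiple of `s (z, u)`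
only if it is tangent to the line through `u`. -/
def IsAmple : Prop :=
  ∃ (m N : ℕ) (s : ∀ x, Module.Dual ℂ (E x) → Cn (N + 1))
    (Φ : (Σ x, ℙ ℂ (Module.Dual ℂ (E x))) → ℙ ℂ (Cn (N + 1))), 1 ≤ m ∧
    (∀ x u (a : ℂ), u ≠ 0 → a ≠ 0 → s x (a • u) = a ^ m • s x u) ∧
    (∀ x u (hu : u ≠ 0), ∃ h : s x u ≠ 0,
      Φ ⟨x, Projectivization.mk ℂ u hu⟩ = Projectivization.mk ℂ (s x u) h) ∧
    Function.Injective Φ ∧
    ∀ c ∈ atlas (Cn n) X, ∀ (t : Trivialization (Cn r) (π (Cn r) E)) [MemTrivializationAtlas t],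
      DifferentiableOn ℂ (loc s c t) (dom c t ×ˢ {0}ᶜ) ∧
      ∀ z ∈ dom c t, ∀ u : Cn r, u ≠ 0 → ∀ (ξ : Cn n) (w : Cn r) (a : ℂ),
        fderiv ℂ (loc s c t) (z, u) (ξ, w) = a • loc s c t (z, u) → ξ = 0 ∧ ∃ b : ℂ, w = b • u

end bundle

/-- Griffiths' conjecture for varieties of dimension `n` and bundles of rank `r`: every ample
holomorphic vector bundle of rank `r` on a smooth connected projective variety of dimension `n`
carries a smooth Hermitian metric with strictly Griffiths positive Chern curvature. -/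
def GriffithsConjecture (n r : ℕ) : Prop :=
  ∀ (X : Type) [TopologicalSpace X] [ChartedSpace (Cn n) X] [IsManifold 𝓘(ℂ, Cn n) ω X]
    [T2Space X] [CompactSpace X] [ConnectedSpace X], IsSmoothProjective n X →
    ∀ (E : X → Type) [∀ x, AddCommGroup (E x)] [∀ x, Module ℂ (E x)]
      [∀ x, TopologicalSpace (E x)] [TopologicalSpace (TotalSpace (Cn r) E)]
      [FiberBundle (Cn r) E] [VectorBundle ℂ (Cn r) E]
      [ContMDiffVectorBundle ω (Cn r) E 𝓘(ℂ, Cn n)],
      IsAmple n r E → ∃ H : HermitianMetric n r E, H.GriffithsPositive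

end Vale.Agent.P296Z
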