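import Vale.Agent.P296Z.PE
import Vale.Agent.P299.H800.KOD.Main
import Vale.Agent.P272.K.N.Hess
import Vale.Agent.P296.Bdl.B1

/-!
# P296Z: a positive metric on `O(1)` makes some `O(m)` very ample (Kodaira)
-/

set_option linter.all false

noncomputable section

namespace Vale.Agent.P296Z

open Bundle Matrix Filter Set
open scoped Manifold ContDiff Topology LinearAlgebra.Projectivization ComplexOrder
open Vale.Agent.P272.K Vale.Agent.P299.H800.KOD

section sections

variable {d : ℕ} {Y : Type} [TopologicalSpace Y] [ChartedSpace (Cm d) Y]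
  {L : ALB d Y} {m N : ℕ} {e e' : Chart d Y} {x : Y}

/-- the coefficients of the sections in the chart `e` -/
def cf (s : Fin (N + 1) → PSec L m) (e : Chart d Y) (z : Cm d) : Cn (N + 1) :=
  fun k => (s k).coeff e z

theorem contDiffAt_cf (s : Fin (N + 1) → PSec L m) (h : At e x) :
    ContDiffAt ℂ ω (cf s e) (e x) :=
  contDiffAt_pi.2 fun k => ((s k).holo e x h).contDiffAt

theorem cf_change (s : Fin (N + 1) → PSec L m) (h : At e x) (h' : At e' x) :
    cf s e (e x) = L.tr e e' x ^ m • cf s e' (e' x) := by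
  funext k
  simp only [cf, Pi.smul_apply, smul_eq_mul]
  rw [(s k).change e e' x h h', mul_comm]

theorem at_chartAt (x : Y) : At (chartAt (Cm d) x) x :=
  ⟨chart_mem_atlas _ _, mem_chart_source _ _⟩

theorem cf_ne_zero {s : Fin (N + 1) → PSec L m} (hs : DefinesEmbedding s) (h : At e x) :
    cf s e (e x) ≠ 0 := by
  rw [cf_change s h (at_chartAt x)]
  exact smul_ne_zero (pow_ne_zero _ (L.ne_zero h (at_chartAt x))) (hs.ne_zero x)

theorem mk_cf {s : Fin (N + 1) → PSec L m} (hs : DefinesEmbedding s) (h : At e x) :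
    Projectivization.mk ℂ (fun i => (s i).val x) (hs.ne_zero x) =
      Projectivization.mk ℂ (cf s e (e x)) (cf_ne_zero hs h) := by
  symm
  rw [Projectivization.mk_eq_mk_iff']
  exact ⟨_, (cf_change s h (at_chartAt x)).symm⟩

variable [IsManifold 𝓘(ℂ, Cm d) ω Y]

theorem cf_imm {s : Fin (N + 1) → PSec L m} (hs : DefinesEmbedding s) (h : At e x)
    {v : Cm d} {a : ℂ} (hv : fderiv ℂ (cf s e) (e x) v = a • cf s e (e x)) : v = 0 := by
  set e0 := chartAt (Cm d) x with he0
  have h0 : At e0 x := at_chartAt x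
  obtain ⟨i, hi⟩ := Function.ne_iff.1 (hs.ne_zero x)
  have hi0 : (s i).coeff e0 (e0 x) ≠ 0 := hi
  have hie : (s i).coeff e (e x) ≠ 0 := by
    rw [(s i).change e e0 x h h0]
    exact mul_ne_zero hi0 (pow_ne_zero _ (L.ne_zero h h0))
  have hτ := transition_differentiableAt h h0
  have hτx : e0 (e.symm (e x)) = e0 x := by rw [h.left_inv]
  have hd : ∀ j, HasFDerivAt ((s j).coeff e)
      ((ContinuousLinearMap.proj j).comp (fderiv ℂ (cf s e) (e x))) (e x) := fun j =>
    (hasFDerivAt_pi'.1 ((contDiffAt_cf s h).differentiableAt (by simp)).hasFDerivAt) j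
  have key : fderiv ℂ (fun z => e0 (e.symm z)) (e x) v = 0 := by
    refine hs.immersive x i hi _ fun j => ?_
    have h1 : (fun z => (s j).coeff e z / (s i).coeff e z) =ᶠ[𝓝 (e x)]
        fun z => (s j).coeff e0 (e0 (e.symm z)) / (s i).coeff e0 (e0 (e.symm z)) := by
      filter_upwards [h.nhds_at h0] with z hz
      have h2 := (s j).change e e0 _ hz.2.1 hz.2.2
      have h3 := (s i).change e e0 _ hz.2.1 hz.2.2
      rw [e.right_inv hz.1] at h2 h3
      rw [h2, h3, mul_div_mul_right _ _ (pow_ne_zero _ (L.ne_zero hz.2.1 hz.2.2))]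
    have h2 : DifferentiableAt ℂ (fun z => (s j).coeff e0 z / (s i).coeff e0 z)
        (e0 (e.symm (e x))) := by
      rw [hτx]
      exact (((s j).holo e0 x h0).div ((s i).holo e0 x h0) hi0).differentiableAt
    have h3 := fderiv_comp (e x) h2 hτ
    have h4 : dratio s x i j (fderiv ℂ (fun z => e0 (e.symm z)) (e x) v) =
        fderiv ℂ (fun z => (s j).coeff e z / (s i).coeff e z) (e x) v := by
      rw [h1.fderiv_eq]
      change _ = fderiv ℂ ((fun z => (s j).coeff e0 z / (s i).coeff e0 z) ∘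
        fun z => e0 (e.symm z)) (e x) v
      rw [h3, hτx]
      rfl
    rw [h4]
    have h5 := ((hd j).mul ((hasFDerivAt_inv' hie).comp (e x) (hd i))).fderiv
    have h6 : (fun z => (s j).coeff e z / (s i).coeff e z) =
        (s j).coeff e * (Inv.inv ∘ (s i).coeff e) := by
      funext z; simp [div_eq_mul_inv]
    rw [h6, h5]
    have h7 : fderiv ℂ (cf s e) (e x) v j = a * (s j).coeff e (e x) := congrFun hv j
    have h8 : fderiv ℂ (cf s e) (e x) v i = a * (s i).coeff e (e x) := congrFun hv i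
    simp [h7, h8]
    field_simp
    ring
  have hσ := transition_differentiableAt h0 h
  have h1 : (fun z => e (e0.symm (e0 (e.symm z)))) =ᶠ[𝓝 (e x)] id := by
    filter_upwards [h.nhds_at h0] with z hz
    rw [hz.2.2.left_inv, e.right_inv hz.1, id]
  have h2 := fderiv_comp (e x) (g := fun z => e (e0.symm z)) (f := fun z => e0 (e.symm z))
    (by rw [hτx]; exact hσ) hτ
  have h3 : fderiv ℂ (fun z => e (e0.symm (e0 (e.symm z)))) (e x) v = v := by
    rw [h1.fderiv_eq, fderiv_id]; rfl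
  rw [← h3]
  change fderiv ℂ ((fun z => e (e0.symm z)) ∘ fun z => e0 (e.symm z)) (e x) v = 0
  rw [h2, ContinuousLinearMap.comp_apply, key, map_zero]

end sections

/-- positivity of the complex Hessian from the Levi form -/
theorem cHess_posDef {d : ℕ} {f : Cm d → ℝ} {z : Cm d} (hf : ContDiffAt ℝ 2 f z)
    (h : ∀ ξ, ξ ≠ 0 → 0 < P296.levi f z ξ) : (cHess f z).PosDef := by
  have hs : ∀ v w, fderiv ℝ (fderiv ℝ f) z v w = fderiv ℝ (fderiv ℝ f) z w v :=
    fun v w => hf.isSymmSndFDerivAt (by simp) v w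
  rw [N.cHess_eq_lev (P296.ContDiffAt.diff_fderiv hf)]
  refine Matrix.PosDef.of_dotProduct_mulVec_pos (N.lev_isHermitian hs) fun x hx => ?_
  rw [N.lev_quadratic hs]
  have h1 := h (star x) (star_ne_zero.2 hx)
  rw [P296.levi_eq', smul_eq_mul] at h1
  have h2 : (0 : ℝ) < (fderiv ℝ (fderiv ℝ f) z (star x) (star x) +
      fderiv ℝ (fderiv ℝ f) z (Complex.I • star x) (Complex.I • star x)) / 4 := by linarith
  exact_mod_cast h2

variable {n q : ℕ} {X : Type} [TopologicalSpace X] [ChartedSpace (Cn n) X]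
  {E : X → Type} [∀ x, AddCommGroup (E x)] [∀ x, Module ℂ (E x)] [∀ x, TopologicalSpace (E x)]
  [TopologicalSpace (TotalSpace (Cn (q + 1)) E)] [FiberBundle (Cn (q + 1)) E]
  [VectorBundle ℂ (Cn (q + 1)) E]
  [IsManifold 𝓘(ℂ, Cn n) ω X] [ContMDiffVectorBundle ω (Cn (q + 1)) E 𝓘(ℂ, Cn n)]

/-- the distinguished coordinate of the chart `e` -/
def mu (e : Chart (n + q) (PE n q E)) (x : X) (l : Module.Dual ℂ (E x)) : ℂ :=
  open Classical in
  if h : ∃ α, och α = e then co h.choose.t x l h.choose.k else 1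

theorem exists_ix {e : Chart (n + q) (PE n q E)} (he : e ∈ atlas (Cn (n + q)) (PE n q E)) :
    ∃ α, och α = e ∧ ∀ x l, mu e x l = co α.t x l α.k := by
  have h := (mem_atlas_iff e).1 he
  exact ⟨h.choose, h.choose_spec, fun x l => dif_pos h⟩

theorem mu_ne_zero {e : Chart (n + q) (PE n q E)} {p : PE n q E} (h : At e p) :
    mu e p.base p.vec ≠ 0 := by
  obtain ⟨α, rfl, hα⟩ := exists_ix h.1
  rw [hα]
  exact h.2.2.2

theorem mu_smul {e : Chart (n + q) (PE n q E)} (he : e ∈ atlas (Cn (n + q)) (PE n q E))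
    (x : X) (l : Module.Dual ℂ (E x)) (a : ℂ) : mu e x (a • l) = a * mu e x l := by
  obtain ⟨α, -, hα⟩ := exists_ix he
  rw [hα, hα, co_smul]
  rfl

variable (n q E) in
/-- the line bundle `O(1)` -/
def taut : ALB (n + q) (PE n q E) where
  tr e e' p := mu e' p.base p.vec / mu e p.base p.vec
  hol e e' p h h' := by
    obtain ⟨α, rfl, hα⟩ := exists_ix h.1
    obtain ⟨β, rfl, hβ⟩ := exists_ix h'.1
    have h1 : fs q (och α p) ∈ dom α.c α.t := h.mem_target
    have h2 : α.c.symm (fs q (och α p)) ∈ β.t.baseSet := by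
      have h3 : ((och α).symm (och α p)).base ∈ β.t.baseSet := by
        rw [h.left_inv]; exact h'.2.2.1
      exact h3
    refine (contDiffAt_pi.1 (contDiffAt_tw α h1 h2) β.k).congr_of_eventuallyEq ?_
    filter_upwards [h.nhds_at h'] with z hz
    obtain ⟨a, ha, h4, h5⟩ := cv_chart_symm α hz.1
    rw [hα, hβ]
    change cv β.t ((chart α).symm z) β.k / cv α.t ((chart α).symm z) α.k = _
    rw [h4, h5 β.t hz.2.2.2.2.1, Pi.smul_apply, smul_eq_mul, mul_div_cancel_left₀ _ ha]
  ne e e' p h h' := div_ne_zero (mu_ne_zero h') (mu_ne_zero h)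
  coc e e' e'' p h h' h'' := by
    have := mu_ne_zero h'
    field_simp

theorem taut_tr (e e' : Chart (n + q) (PE n q E)) (p : PE n q E) :
    (taut n q E).tr e e' p = mu e' p.base p.vec / mu e p.base p.vec := rfl

/-- the weights of the metric on `O(1)` given by `F` -/
def weight (F : ∀ x, Module.Dual ℂ (E x) → ℝ) (e : Chart (n + q) (PE n q E)) (y : Cn (n + q)) : ℝ :=
  Real.log (F (e.symm y).base (e.symm y).vec) -
    Real.log (‖mu e (e.symm y).base (e.symm y).vec‖ ^ 2)

theorem weight_eq {F : ∀ x, Module.Dual ℂ (E x) → ℝ} (hpos : ∀ x l, l ≠ 0 → 0 < F x l)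
    (hhom : ∀ x l (a : ℂ), l ≠ 0 → a ≠ 0 → F x (a • l) = ‖a‖ ^ 2 * F x l) {α : Idx n q E}
    (hα : ∀ x l, mu (och α) x l = co α.t x l α.k) {y : Cn (n + q)} (hy : y ∈ (och α).target) :
    weight F (och α) y = Real.log (loc F α.c α.t (fs q y, ins n α.k y)) := by
  obtain ⟨a, ha, h4, h5⟩ := cv_chart_symm α hy
  have h6 : ((och α).symm y).vec = a • covec α.t (α.c.symm (fs q y)) (ins n α.k y) := by
    rw [← covec_smul]
    have h7 := h5 α.t hy.2
    unfold tw at h7
    rw [tm_self hy.2] at h7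
    rw [← h7]
    exact (covec_co hy.2 _).symm
  have h8 := covec_ne_zero hy.2 (ins_ne_zero α.k y)
  have h9 : F ((och α).symm y).base ((och α).symm y).vec =
      ‖a‖ ^ 2 * loc F α.c α.t (fs q y, ins n α.k y) := by
    rw [h6]
    exact hhom _ _ a h8 ha
  have h10 : mu (och α) ((och α).symm y).base ((och α).symm y).vec = a := by
    rw [hα]; exact h4
  have h11 : loc F α.c α.t (fs q y, ins n α.k y) ≠ 0 := (hpos _ _ h8).ne'
  unfold weight
  rw [h9, h10, Real.log_mul (pow_ne_zero _ (norm_ne_zero_iff.2 ha)) h11]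
  ring

theorem ample_taut [T2Space X] [CompactSpace X] (F : ∀ x, Module.Dual ℂ (E x) → ℝ)
    (hpos : ∀ x l, l ≠ 0 → 0 < F x l)
    (hhom : ∀ x l (a : ℂ), l ≠ 0 → a ≠ 0 → F x (a • l) = ‖a‖ ^ 2 * F x l)
    (hsm : ∀ c ∈ atlas (Cn n) X, ∀ (t : Trivialization (Cn (q + 1)) (π (Cn (q + 1)) E))
      [MemTrivializationAtlas t], ∀ z ∈ dom c t, ∀ u, u ≠ 0 → ContDiffAt ℝ ∞ (loc F c t) (z, u))
    (hlev : ∀ c ∈ atlas (Cn n) X, ∀ (t : Trivialization (Cn (q + 1)) (π (Cn (q + 1)) E))
      [MemTrivializationAtlas t], ∀ z ∈ dom c t, ∀ u, u ≠ 0 → ∀ ξ w,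
        ¬ (ξ = 0 ∧ ∃ b : ℂ, w = b • u) →
        0 < P296.levi (fun p => Real.log (loc F c t p)) (z, u) (ξ, w)) :
    Ample (taut n q E) := by
  have hlift : ∀ k : Fin (q + 1), ContDiff ℂ ω (fun y : Cn (n + q) => (fs q y, ins n k y)) :=
    fun k => contDiff_fs.prodMk (contDiff_ins k)
  have hev : ∀ (α : Idx n q E) (p : PE n q E), (∀ x l, mu (och α) x l = co α.t x l α.k) →
      At (och α) p → weight F (och α) =ᶠ[𝓝 (och α p)]
        fun y => Real.log (loc F α.c α.t (fs q y, ins n α.k y)) := by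
    intro α p hα h
    filter_upwards [h.nhds_target] with y hy
    exact weight_eq hpos hhom hα hy
  have hlog : ∀ (α : Idx n q E) (p : PE n q E), At (och α) p →
      ContDiffAt ℝ ∞ (fun p => Real.log (loc F α.c α.t p))
        (fs q (och α p), ins n α.k (och α p)) := by
    intro α p h
    have h1 : fs q (och α p) ∈ dom α.c α.t := h.mem_target
    exact (hsm α.c α.hc α.t _ h1 _ (ins_ne_zero _ _)).log
      (hpos _ _ (covec_ne_zero h1.2 (ins_ne_zero _ _))).ne'
  refine kodaira (n + q) (PE n q E) (taut n q E) (weight F) ⟨?_, ?_⟩ ?_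
  · intro e p h
    obtain ⟨α, rfl, hα⟩ := exists_ix h.1
    refine ContDiffAt.congr_of_eventuallyEq ?_ (hev α p hα h)
    exact (hlog α p h).comp (och α p)
      (((hlift α.k).of_le le_top).restrict_scalars ℝ).contDiffAt
  · intro e e' p h h'
    unfold weight
    rw [h.left_inv, h'.left_inv, taut_tr, norm_div, div_pow,
      Real.log_div (pow_ne_zero _ (norm_ne_zero_iff.2 (mu_ne_zero h')))
        (pow_ne_zero _ (norm_ne_zero_iff.2 (mu_ne_zero h)))]
    ring
  · intro e p h
    obtain ⟨α, rfl, hα⟩ := exists_ix h.1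
    rw [cHess_congr (hev α p hα h)]
    have h1 : fs q (och α p) ∈ dom α.c α.t := h.mem_target
    have h2 : ContDiffAt ℝ 2 (fun p => Real.log (loc F α.c α.t p))
        (fs q (och α p), ins n α.k (och α p)) := (hlog α p h).of_le (by norm_cast)
    refine cHess_posDef (h2.comp (och α p)
      (((hlift α.k).of_le le_top).restrict_scalars ℝ).contDiffAt) fun η hη => ?_
    rw [P296.levi_comp_hol (Θ := fun y : Cn (n + q) => (fs q y, ins n α.k y)) h2
      ((hlift α.k).of_le le_top).contDiffAt, fderiv_lift]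
    refine hlev α.c α.hc α.t _ h1 _ (ins_ne_zero _ _) _ _ ?_
    rintro ⟨h3, b, h4⟩
    apply hη
    have h5 : b = 0 := by
      have := congrFun h4 α.k
      rw [ins0_self, Pi.smul_apply, ins_self, smul_eq_mul, mul_one] at this
      exact this.symm
    rw [h5, zero_smul] at h4
    funext i
    refine Fin.addCases (fun i => ?_) (fun j => ?_) i
    · exact congrFun h3 i
    · have := congrFun h4 (α.k.succAbove j)
      rwa [ins0_succAbove] at this

/-- the homogeneous functions on `E*` given by sections of a power of `O(1)` -/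
def homFun {m N : ℕ} (s : Fin (N + 1) → PSec (taut n q E) m) (x : X) (l : Module.Dual ℂ (E x)) :
    Cn (N + 1) :=
  mu (chartAt (Cn (n + q)) (PE.of n q x l)) x l ^ m • fun k => (s k).val (PE.of n q x l)

theorem mu_ne_zero' {e : Chart (n + q) (PE n q E)} {x : X} {l : Module.Dual ℂ (E x)}
    (hl : l ≠ 0) (h : At e (PE.of n q x l)) : mu e x l ≠ 0 := by
  obtain ⟨a, ha, h1⟩ := PE.vec_of (n := n) (q := q) hl
  have h2 := mu_ne_zero h
  rw [h1] at h2
  intro h0
  apply h2
  change mu e x (a • l) = 0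
  rw [mu_smul h.1, h0, mul_zero]

theorem homFun_eq {m N : ℕ} (s : Fin (N + 1) → PSec (taut n q E) m) {x : X}
    {l : Module.Dual ℂ (E x)} (hl : l ≠ 0) {e : Chart (n + q) (PE n q E)}
    (h : At e (PE.of n q x l)) : homFun s x l = mu e x l ^ m • cf s e (e (PE.of n q x l)) := by
  have h0 := at_chartAt (d := n + q) (PE.of n q x l)
  have h1 := cf_change s h0 h
  obtain ⟨a, ha, h2⟩ := PE.vec_of (n := n) (q := q) hl
  have h3 : (taut n q E).tr (chartAt (Cn (n + q)) (PE.of n q x l)) e (PE.of n q x l) =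
      mu e x l / mu (chartAt (Cn (n + q)) (PE.of n q x l)) x l := by
    rw [taut_tr, h2]
    change mu e x (a • l) / mu (chartAt (Cn (n + q)) (PE.of n q x l)) x (a • l) = _
    rw [mu_smul h.1, mu_smul h0.1, mul_div_mul_left _ _ ha]
  unfold homFun
  change _ • cf s (chartAt (Cn (n + q)) (PE.of n q x l))
    (chartAt (Cn (n + q)) (PE.of n q x l) (PE.of n q x l)) = _
  rw [h1, h3, smul_smul, ← mul_pow, mul_div_cancel₀ _ (mu_ne_zero' hl h0)]

theorem isAmple_of_ample (h : Ample (taut n q E)) : IsAmple n (q + 1) E := by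
  obtain ⟨m, hm, N, s, hs⟩ := h
  refine ⟨m, N, homFun s, fun p => Projectivization.mk ℂ
    (fun k => (s k).val (⟨p.1, p.2⟩ : PE n q E)) (hs.ne_zero _), hm, ?_, ?_, ?_, ?_⟩
  · intro x l a hl ha
    unfold homFun
    rw [PE.of_smul hl ha, mu_smul (chart_mem_atlas _ _), mul_pow, mul_smul]
  · intro x l hl
    have h0 := at_chartAt (d := n + q) (PE.of n q x l)
    have h1 : homFun s x l ≠ 0 :=
      smul_ne_zero (pow_ne_zero _ (mu_ne_zero' hl h0)) (hs.ne_zero _)
    refine ⟨h1, ?_⟩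
    have h2 : (⟨x, Projectivization.mk ℂ l hl⟩ : PE n q E) = PE.of n q x l := by
      unfold PE.of; rw [mkD_of_ne hl]
    symm
    rw [Projectivization.mk_eq_mk_iff']
    refine ⟨mu (chartAt (Cn (n + q)) (PE.of n q x l)) x l ^ m, ?_⟩
    dsimp only
    rw [h2]
    rfl
  · rintro ⟨x, l⟩ ⟨x', l'⟩ h
    have h1 := hs.injective h
    cases h1
    rfl
  · intro c hc t ht
    have key : ∀ z ∈ dom c t, ∀ u : Cn (q + 1), u ≠ 0 →
        ∃ (k : Fin (q + 1)) (e : Chart (n + q) (PE n q E)) (p : PE n q E)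
          (lam : Cn n × Cn (q + 1) → ℂ), u k ≠ 0 ∧ At e p ∧ e p = aff k (z, u) ∧
          ContDiffAt ℂ ω lam (z, u) ∧ lam (z, u) ≠ 0 ∧
          loc (homFun s) c t =ᶠ[𝓝 (z, u)] fun w => lam w • cf s e (aff k w) := by
      intro z hz u hu
      obtain ⟨k, hk⟩ := Function.ne_iff.1 hu
      have hk' : u k ≠ 0 := hk
      let α : Idx n q E := ⟨c, hc, t, ht, k⟩
      obtain ⟨β, hβ, hmu⟩ := exists_ix (och_mem_atlas α)
      have hsrc : ∀ w : Cn n × Cn (q + 1), w.1 ∈ dom c t → w.2 k ≠ 0 →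
          At (och α) (pt n t (c.symm w.1) w.2) ∧
            och α (pt n t (c.symm w.1) w.2) = aff k w := by
        intro w h1 h2
        have h3 : w.2 ≠ 0 := fun h => h2 (congrFun h k)
        obtain ⟨a, ha, h4⟩ := cv_pt (n := n) h1.2 h3
        have h5 := h4 t h1.2
        rw [tm_self h1.2] at h5
        refine ⟨⟨och_mem_atlas α, c.map_target h1.1, h1.2, ?_⟩, ?_⟩
        · change cv t _ k ≠ 0
          rw [h5]
          exact mul_ne_zero ha h2
        · change aff k (c (c.symm w.1), cv t _) = _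
          rw [h5, c.right_inv h1.1, aff_smul _ _ _ ha]
      have hbase : ∀ w : Cn n × Cn (q + 1), w.1 ∈ dom c t → w.2 k ≠ 0 →
          c.symm w.1 ∈ β.t.baseSet := by
        intro w h1 h2
        have h3 := (hsrc w h1 h2).1.2
        rw [← hβ] at h3
        exact h3.2.1
      have hlam : ∀ w : Cn n × Cn (q + 1), w.1 ∈ dom c t → w.2 k ≠ 0 →
          mu (och α) (c.symm w.1) (covec t (c.symm w.1) w.2) =
            (w.2 ᵥ* tm t β.t (c.symm w.1)) β.k := by
        intro w h1 h2
        rw [hmu, co_covec h1.2 (hbase w h1 h2)]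
      refine ⟨k, och α, pt n t (c.symm z) u, fun w => (w.2 ᵥ* tm t β.t (c.symm w.1)) β.k ^ m, hk',
        (hsrc (z, u) hz hk').1, (hsrc (z, u) hz hk').2, ?_, ?_, ?_⟩
      · exact (contDiffAt_pi.1 (contDiffAt_vecMul_tm hc contDiffAt_fst contDiffAt_snd hz.1 hz.2
          (hbase (z, u) hz hk')) β.k).pow m
      · refine pow_ne_zero _ ?_
        rw [← hlam (z, u) hz hk']
        exact mu_ne_zero' (covec_ne_zero hz.2 hu) (hsrc (z, u) hz hk').1
      · have e1 : ∀ᶠ w : Cn n × Cn (q + 1) in 𝓝 (z, u), w.1 ∈ dom c t :=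
          continuous_fst.continuousAt.eventually_mem ((isOpen_dom c t).mem_nhds hz)
        have e2 : ∀ᶠ w : Cn n × Cn (q + 1) in 𝓝 (z, u), w.2 k ≠ 0 :=
          ((continuous_apply k).comp continuous_snd).continuousAt.eventually_ne hk'
        filter_upwards [e1, e2] with w h1 h2
        have h3 : w.2 ≠ 0 := fun h => h2 (congrFun h k)
        unfold loc
        rw [homFun_eq s (covec_ne_zero h1.2 h3) (hsrc w h1 h2).1, hlam w h1 h2]
        congr 2
        exact (hsrc w h1 h2).2
    refine ⟨?_, ?_⟩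
    · rintro ⟨z, u⟩ ⟨hz, hu⟩
      obtain ⟨k, e, p, lam, h1, h2, h3, h4, h5, h6⟩ := key z hz u hu
      have h7 : ContDiffAt ℂ ω (cf s e) (aff k (z, u)) := h3 ▸ contDiffAt_cf s h2
      have h8 : ContDiffAt ℂ ω (fun w => lam w • cf s e (aff k w)) (z, u) :=
        h4.smul (h7.comp (z, u) (contDiffAt_aff k (p := (z, u)) h1))
      exact ((h8.congr_of_eventuallyEq h6).differentiableAt (by simp)).differentiableWithinAt
    · intro z hz u hu ξ w a hw
      obtain ⟨k, e, p, lam, h1, h2, h3, h4, h5, h6⟩ := key z hz u hu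
      have h7 : DifferentiableAt ℂ (cf s e) (aff k (z, u)) :=
        (h3 ▸ contDiffAt_cf s h2 : ContDiffAt ℂ ω (cf s e) (aff k (z, u))).differentiableAt (by simp)
      have h8 : DifferentiableAt ℂ (aff k : Cn n × Cn (q + 1) → Cn (n + q)) (z, u) :=
        (contDiffAt_aff k (p := (z, u)) h1).differentiableAt (by simp)
      have h9 := ((h4.differentiableAt (by simp)).hasFDerivAt.smul
        (h7.hasFDerivAt.comp (z, u) h8.hasFDerivAt)).fderiv
      rw [h6.fderiv_eq, h6.eq_of_nhds] at hw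
      have h10 : fderiv ℂ (fun w => lam w • cf s e (aff k w)) (z, u) (ξ, w) =
          lam (z, u) • fderiv ℂ (cf s e) (aff k (z, u)) (fderiv ℂ (aff k) (z, u) (ξ, w)) +
            fderiv ℂ lam (z, u) (ξ, w) • cf s e (aff k (z, u)) := by
        change fderiv ℂ (lam • (cf s e ∘ aff k)) (z, u) (ξ, w) = _
        rw [h9]
        simp
      rw [h10] at hw
      refine fderiv_aff_eq_zero k (z := z) h1 (cf_imm hs h2
        (a := a - fderiv ℂ lam (z, u) (ξ, w) / lam (z, u)) ?_)
      rw [h3]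
      have h11 := congrArg (fun v => (lam (z, u))⁻¹ • v) (eq_sub_of_add_eq hw)
      simp only [smul_smul, inv_mul_cancel₀ h5, one_smul, ← sub_smul] at h11
      rw [h11]
      congr 1
      field_simp

end Vale.Agent.P296Z
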