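import Vale.Agent.P296Z.Defs
import Vale.Agent.P272.K.Inv.Chart
import Mathlib.Analysis.Calculus.Deriv.Prod

/-!
# P296Z: frames, dual frames and transition matrices; affine charts of projective space
-/

set_option linter.all false

noncomputable section

namespace Vale.Agent.P296Z

open Bundle Matrix Filter
open scoped Manifold ContDiff Topology LinearAlgebra.Projectivization

section bundle

variable {n r : ℕ} {X : Type} [TopologicalSpace X] [ChartedSpace (Cn n) X]
  {E : X → Type} [∀ x, AddCommGroup (E x)] [∀ x, Module ℂ (E x)] [∀ x, TopologicalSpace (E x)]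
  [TopologicalSpace (TotalSpace (Cn r) E)] [FiberBundle (Cn r) E] [VectorBundle ℂ (Cn r) E]

/-- coordinates of a linear form in the dual frame -/
def co (t : Trivialization (Cn r) (π (Cn r) E)) (x : X) (l : Module.Dual ℂ (E x)) : Cn r :=
  fun a => l (frame t x a)

/-- the transition matrix from the frame of `t'` to the frame of `t` -/
def tm (t t' : Trivialization (Cn r) (π (Cn r) E)) [MemTrivializationAtlas t]
    [MemTrivializationAtlas t'] (x : X) : Matrix (Fin r) (Fin r) ℂ :=
  Matrix.of fun a b => (t'.coordChangeL ℂ t x : Cn r →L[ℂ] Cn r) (Pi.single b 1) a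

theorem co_smul {t : Trivialization (Cn r) (π (Cn r) E)} {x : X} (a : ℂ)
    (l : Module.Dual ℂ (E x)) : co t x (a • l) = a • co t x l := by
  funext b; simp [co]

variable {t t' : Trivialization (Cn r) (π (Cn r) E)} [MemTrivializationAtlas t]
  [MemTrivializationAtlas t'] {x : X}

theorem covec_apply (u : Cn r) (v : E x) :
    covec t x u v = ∑ a, u a * t.linearMapAt ℂ x v a := by
  simp [covec, LinearMap.sum_apply]

theorem covec_smul (a : ℂ) (u : Cn r) : covec t x (a • u) = a • covec t x u := by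
  ext v
  simp [covec_apply, Finset.mul_sum, mul_assoc]

theorem co_covec (hx : x ∈ t.baseSet) (hx' : x ∈ t'.baseSet) (u : Cn r) :
    co t' x (covec t x u) = u ᵥ* tm t t' x := by
  funext b
  simp only [co, covec_apply, Matrix.vecMul, dotProduct, tm, Matrix.of_apply]
  refine Finset.sum_congr rfl fun a _ => ?_
  congr 1
  rw [ContinuousLinearEquiv.coe_coe, Trivialization.coordChangeL_apply _ _ ⟨hx', hx⟩,
    Trivialization.coe_linearMapAt_of_mem _ hx]
  rfl

theorem co_covec_self (hx : x ∈ t.baseSet) (u : Cn r) : co t x (covec t x u) = u := by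
  funext b
  simp only [co, covec_apply, frame]
  rw [Trivialization.linearMapAt_symm _ hx]
  simp [Pi.single_apply]

theorem tm_self (hx : x ∈ t.baseSet) (u : Cn r) : u ᵥ* tm t t x = u := by
  rw [← co_covec hx hx, co_covec_self hx]

theorem sum_frame (hx : x ∈ t.baseSet) (v : E x) :
    ∑ a, t.linearMapAt ℂ x v a • frame t x a = v := by
  have h1 : ∀ a, frame t x a = t.symmₗ ℂ x (Pi.single a 1) := fun a => by
    rw [Trivialization.symmₗ_apply _ hx]; rfl
  simp only [h1, ← map_smul, ← map_sum]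
  have h2 : ∑ a, t.linearMapAt ℂ x v a • (Pi.single a 1 : Cn r) = t.linearMapAt ℂ x v := by
    funext b
    simp [Finset.sum_apply, Pi.single_apply]
  rw [h2, Trivialization.symmₗ_linearMapAt _ hx]

theorem covec_co (hx : x ∈ t.baseSet) (l : Module.Dual ℂ (E x)) : covec t x (co t x l) = l := by
  ext v
  rw [covec_apply]
  conv_rhs => rw [← sum_frame hx v]
  simp [co, mul_comm]

theorem covec_ne_zero (hx : x ∈ t.baseSet) {u : Cn r} (hu : u ≠ 0) : covec t x u ≠ 0 := by
  intro h
  apply hu
  rw [← co_covec_self hx u, h]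
  funext a; simp [co]

theorem co_ne_zero (hx : x ∈ t.baseSet) {l : Module.Dual ℂ (E x)} (hl : l ≠ 0) :
    co t x l ≠ 0 := by
  intro h
  apply hl
  rw [← covec_co hx l, h]
  ext v; simp [covec_apply]

theorem covec_tm (hx : x ∈ t.baseSet) (hx' : x ∈ t'.baseSet) (u : Cn r) :
    covec t' x (u ᵥ* tm t t' x) = covec t x u := by
  rw [← co_covec hx hx', covec_co hx']

theorem isOpen_dom (c : OpenPartialHomeomorph X (Cn n)) (t : Trivialization (Cn r) (π (Cn r) E)) :
    IsOpen (dom c t) :=
  c.isOpen_inter_preimage_symm t.open_baseSet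

theorem mem_dom {c : OpenPartialHomeomorph X (Cn n)} {t : Trivialization (Cn r) (π (Cn r) E)}
    (h1 : x ∈ c.source) (h2 : x ∈ t.baseSet) : c x ∈ dom c t :=
  ⟨c.map_source h1, by rw [c.left_inv h1]; exact h2⟩

variable [IsManifold 𝓘(ℂ, Cn n) ω X] [ContMDiffVectorBundle ω (Cn r) E 𝓘(ℂ, Cn n)]

theorem contDiffAt_tm {c : OpenPartialHomeomorph X (Cn n)} (hc : c ∈ atlas (Cn n) X) {z : Cn n}
    (hz : z ∈ c.target) (h1 : c.symm z ∈ t.baseSet) (h2 : c.symm z ∈ t'.baseSet) (a b : Fin r) :
    ContDiffAt ℂ ω (fun y => tm t t' (c.symm y) a b) z := by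
  have h3 : ContMDiffAt 𝓘(ℂ, Cn n) 𝓘(ℂ, Cn r →L[ℂ] Cn r) ω
      (fun x : X => (t'.coordChangeL ℂ t x : Cn r →L[ℂ] Cn r)) (c.symm z) :=
    contMDiffAt_coordChangeL h2 h1
  have h4 := h3.comp z (P272.K.chart_symm_contMDiffAt hc hz)
  rw [contMDiffAt_iff_contDiffAt] at h4
  have h5 := h4.clm_apply (contDiffAt_const (c := (Pi.single b 1 : Cn r)))
  exact (contDiffAt_pi.1 h5) a

theorem contDiffAt_vecMul_tm {c : OpenPartialHomeomorph X (Cn n)} (hc : c ∈ atlas (Cn n) X)
    {V : Type*} [NormedAddCommGroup V] [NormedSpace ℂ V] {f : V → Cn n} {g : V → Cn r} {y : V}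
    (hf : ContDiffAt ℂ ω f y) (hg : ContDiffAt ℂ ω g y)
    (hz : f y ∈ c.target) (h1 : c.symm (f y) ∈ t.baseSet) (h2 : c.symm (f y) ∈ t'.baseSet) :
    ContDiffAt ℂ ω (fun y => g y ᵥ* tm t t' (c.symm (f y))) y := by
  refine contDiffAt_pi.2 fun b => ?_
  simp only [Matrix.vecMul, dotProduct]
  refine ContDiffAt.sum fun a _ => ?_
  exact (contDiffAt_pi.1 hg a).mul ((contDiffAt_tm hc hz h1 h2 a b).comp y hf)

end bundle

section affine

variable {n q : ℕ}

/-- the first `n` coordinates -/
def fs (q : ℕ) (y : Cn (n + q)) : Cn n := fun i => y (Fin.castAdd q i)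

/-- the homogeneous coordinates with `u k = 1` -/
def ins (n : ℕ) (k : Fin (q + 1)) (y : Cn (n + q)) : Cn (q + 1) :=
  k.insertNth (1 : ℂ) fun j => y (Fin.natAdd n j)

/-- the linear part of `ins` -/
def ins0 (n : ℕ) (k : Fin (q + 1)) (y : Cn (n + q)) : Cn (q + 1) :=
  k.insertNth (0 : ℂ) fun j => y (Fin.natAdd n j)

/-- affine coordinates -/
def aff (k : Fin (q + 1)) (p : Cn n × Cn (q + 1)) : Cn (n + q) :=
  Fin.append p.1 fun j => p.2 (k.succAbove j) / p.2 k

theorem ins_self (k : Fin (q + 1)) (y : Cn (n + q)) : ins n k y k = 1 := by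
  simp [ins]

theorem ins_succAbove (k : Fin (q + 1)) (y : Cn (n + q)) (j : Fin q) :
    ins n k y (k.succAbove j) = y (Fin.natAdd n j) := by
  simp [ins]

theorem ins0_self (k : Fin (q + 1)) (y : Cn (n + q)) : ins0 n k y k = 0 := by
  simp [ins0]

theorem ins0_succAbove (k : Fin (q + 1)) (y : Cn (n + q)) (j : Fin q) :
    ins0 n k y (k.succAbove j) = y (Fin.natAdd n j) := by
  simp [ins0]

theorem ins_ne_zero (k : Fin (q + 1)) (y : Cn (n + q)) : ins n k y ≠ 0 := by
  intro h
  have := congrFun h k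
  rw [ins_self] at this
  exact one_ne_zero this

theorem fs_aff (k : Fin (q + 1)) (p : Cn n × Cn (q + 1)) : fs q (aff k p) = p.1 := by
  funext i; simp [fs, aff]

theorem aff_natAdd (k : Fin (q + 1)) (p : Cn n × Cn (q + 1)) (j : Fin q) :
    aff k p (Fin.natAdd n j) = p.2 (k.succAbove j) / p.2 k := by
  simp [aff]

theorem aff_castAdd (k : Fin (q + 1)) (p : Cn n × Cn (q + 1)) (i : Fin n) :
    aff k p (Fin.castAdd q i) = p.1 i := by
  simp [aff]

theorem aff_ins (k : Fin (q + 1)) (y : Cn (n + q)) : aff k (fs q y, ins n k y) = y := by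
  funext i
  refine Fin.addCases (fun i => ?_) (fun j => ?_) i
  · rw [aff_castAdd]; rfl
  · rw [aff_natAdd]; simp [ins_self, ins_succAbove]

theorem aff_smul (k : Fin (q + 1)) (z : Cn n) (u : Cn (q + 1)) {a : ℂ} (ha : a ≠ 0) :
    aff k (z, a • u) = aff k (z, u) := by
  funext i
  refine Fin.addCases (fun i => ?_) (fun j => ?_) i
  · rw [aff_castAdd, aff_castAdd]
  · rw [aff_natAdd, aff_natAdd]
    simp only [Pi.smul_apply, smul_eq_mul]
    rw [mul_div_mul_left _ _ ha]

theorem ins_aff (k : Fin (q + 1)) (z : Cn n) {u : Cn (q + 1)} (hu : u k ≠ 0) :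
    ins n k (aff k (z, u)) = (u k)⁻¹ • u := by
  funext a
  refine Fin.succAboveCases k ?_ (fun j => ?_) a
  · rw [ins_self]; simp [hu]
  · rw [ins_succAbove, aff_natAdd]
    simp [div_eq_inv_mul]

theorem contDiff_fs : ContDiff ℂ ω (fs q : Cn (n + q) → Cn n) :=
  contDiff_pi.2 fun i => contDiff_apply ℂ ℂ _

theorem contDiff_ins (k : Fin (q + 1)) : ContDiff ℂ ω (ins n k) := by
  refine contDiff_pi.2 fun a => ?_
  refine Fin.succAboveCases k ?_ (fun j => ?_) a
  · simp only [ins_self]; exact contDiff_const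
  · simp only [ins_succAbove]; exact contDiff_apply ℂ ℂ _

theorem contDiffAt_aff (k : Fin (q + 1)) {p : Cn n × Cn (q + 1)} (hp : p.2 k ≠ 0) :
    ContDiffAt ℂ ω (aff k : Cn n × Cn (q + 1) → Cn (n + q)) p := by
  refine contDiffAt_pi.2 fun i => ?_
  refine Fin.addCases (fun i => ?_) (fun j => ?_) i
  · simp only [aff_castAdd]
    exact ((contDiff_apply ℂ ℂ i).comp contDiff_fst).contDiffAt
  · simp only [aff_natAdd]
    exact (((contDiff_apply ℂ ℂ _).comp contDiff_snd).contDiffAt).div
      (((contDiff_apply ℂ ℂ _).comp contDiff_snd).contDiffAt) hp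

/-- the differential of `y ↦ (fs y, ins k y)` -/
theorem fderiv_lift (k : Fin (q + 1)) (y η : Cn (n + q)) :
    fderiv ℂ (fun y : Cn (n + q) => (fs q y, ins n k y)) y η = (fs q η, ins0 n k η) := by
  let A : Cn (n + q) →ₗ[ℂ] Cn n × Cn (q + 1) :=
    { toFun := fun η => (fs q η, ins0 n k η)
      map_add' := fun a b => by
        refine Prod.ext rfl ?_
        funext c
        refine Fin.succAboveCases k ?_ (fun j => ?_) c
        · simp [ins0_self]
        · simp [ins0_succAbove]
      map_smul' := fun a b => by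
        refine Prod.ext rfl ?_
        funext c
        refine Fin.succAboveCases k ?_ (fun j => ?_) c
        · simp [ins0_self]
        · simp [ins0_succAbove] }
  have h1 : (fun y : Cn (n + q) => (fs q y, ins n k y)) =
      fun y => (0, Pi.single k 1) + A.toContinuousLinearMap y := by
    funext y
    refine Prod.ext (by simp [A]) ?_
    funext c
    refine Fin.succAboveCases k ?_ (fun j => ?_) c
    · simp [A, ins0_self, ins_self]
    · simp [A, ins0_succAbove, ins_succAbove]
  rw [h1, fderiv_const_add, ContinuousLinearMap.fderiv]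
  rfl

/-- the kernel of the differential of the affine coordinates -/
theorem fderiv_aff_eq_zero (k : Fin (q + 1)) {z ξ : Cn n} {u w : Cn (q + 1)} (hu : u k ≠ 0)
    (h : fderiv ℂ (aff k : Cn n × Cn (q + 1) → Cn (n + q)) (z, u) (ξ, w) = 0) :
    ξ = 0 ∧ ∃ b : ℂ, w = b • u := by
  have hd : DifferentiableAt ℂ (aff k : Cn n × Cn (q + 1) → Cn (n + q)) (z, u) :=
    (contDiffAt_aff k (p := (z, u)) hu).differentiableAt (by simp)
  have hline : HasDerivAt (fun s : ℂ => ((z, u) : Cn n × Cn (q + 1)) + s • (ξ, w)) (ξ, w) 0 := by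
    simpa using ((hasDerivAt_id (0 : ℂ)).smul_const ((ξ, w) : Cn n × Cn (q + 1))).const_add (z, u)
  have h1 : HasDerivAt (fun s : ℂ => aff k (((z, u) : Cn n × Cn (q + 1)) + s • (ξ, w))) 0 0 := by
    have h2 : HasFDerivAt (aff k : Cn n × Cn (q + 1) → Cn (n + q))
        (fderiv ℂ (aff k : Cn n × Cn (q + 1) → Cn (n + q)) (z, u))
        (((z, u) : Cn n × Cn (q + 1)) + (0 : ℂ) • (ξ, w)) := by
      rw [zero_smul, add_zero]; exact hd.hasFDerivAt
    have h3 := h2.comp_hasDerivAt (0 : ℂ) hline
    rw [h] at h3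
    exact h3
  refine ⟨?_, w k / u k, ?_⟩
  · funext i
    have h2 := (hasDerivAt_pi.1 h1) (Fin.castAdd q i)
    simp only [aff_castAdd] at h2
    have h3 : HasDerivAt (fun s : ℂ => z i + s * ξ i) (ξ i) 0 := by
      simpa using ((hasDerivAt_id (0 : ℂ)).mul_const (ξ i)).const_add (z i)
    exact h3.unique h2
  · funext c
    refine Fin.succAboveCases k ?_ (fun j => ?_) c
    · simp [hu]
    · have h2 := (hasDerivAt_pi.1 h1) (Fin.natAdd n j)
      simp only [aff_natAdd] at h2
      have h3 : HasDerivAt (fun s : ℂ => u (k.succAbove j) + s * w (k.succAbove j))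
          (w (k.succAbove j)) 0 := by
        simpa using ((hasDerivAt_id (0 : ℂ)).mul_const (w (k.succAbove j))).const_add
          (u (k.succAbove j))
      have h4 : HasDerivAt (fun s : ℂ => u k + s * w k) (w k) 0 := by
        simpa using ((hasDerivAt_id (0 : ℂ)).mul_const (w k)).const_add (u k)
      have h5 := h3.div h4 (by simpa using hu)
      have h6 := h5.unique h2
      simp only [zero_mul, add_zero, Pi.zero_apply] at h6
      rw [div_eq_zero_iff] at h6
      rcases h6 with h6 | h6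
      · simp only [Pi.smul_apply, smul_eq_mul]
        field_simp
        linear_combination h6
      · exact absurd (pow_eq_zero_iff two_ne_zero |>.1 h6) hu

end affine

end Vale.Agent.P296Z
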