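import Vale.Agent.P296Z.Lin

/-!
# P296Z: the projective bundle `ℙ(E)` as a compact complex manifold
-/

set_option linter.all false

noncomputable section

namespace Vale.Agent.P296Z

open Bundle Matrix Filter Set
open scoped Manifold ContDiff Topology LinearAlgebra.Projectivization

variable {n q : ℕ} {X : Type} [TopologicalSpace X] [ChartedSpace (Cn n) X]
  {E : X → Type} [∀ x, AddCommGroup (E x)] [∀ x, Module ℂ (E x)] [∀ x, TopologicalSpace (E x)]
  [TopologicalSpace (TotalSpace (Cn (q + 1)) E)] [FiberBundle (Cn (q + 1)) E]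
  [VectorBundle ℂ (Cn (q + 1)) E]

/-- the projective bundle of one-dimensional quotients (the numbers `n`, `q` only tag the type) -/
structure PE (n q : ℕ) {X : Type} (E : X → Type) [∀ x, AddCommGroup (E x)]
    [∀ x, Module ℂ (E x)] : Type where
  base : X
  line : ℙ ℂ (Module.Dual ℂ (E base))

variable (n q E) in
/-- indices of the charts -/
structure Idx where
  c : OpenPartialHomeomorph X (Cn n)
  hc : c ∈ atlas (Cn n) X
  t : Trivialization (Cn (q + 1)) (π (Cn (q + 1)) E)
  ht : MemTrivializationAtlas t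
  k : Fin (q + 1)

instance Idx.inst (α : Idx n q E) : MemTrivializationAtlas α.t := α.ht

variable (q) in
/-- the line through `l`, junk if `l = 0` -/
def mkD (x : X) (l : Module.Dual ℂ (E x)) : ℙ ℂ (Module.Dual ℂ (E x)) :=
  open Classical in
  if h : l ≠ 0 then Projectivization.mk ℂ l h else
    Projectivization.mk ℂ (covec (trivializationAt (Cn (q + 1)) E x) x fun _ => 1)
      (covec_ne_zero (mem_baseSet_trivializationAt _ _ x) fun h => one_ne_zero (congrFun h 0))

theorem mkD_of_ne {x : X} {l : Module.Dual ℂ (E x)} (h : l ≠ 0) :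
    mkD q x l = Projectivization.mk ℂ l h := dif_pos h

/-- a representative -/
def PE.vec (p : PE n q E) : Module.Dual ℂ (E p.base) := p.line.rep

theorem PE.vec_ne_zero (p : PE n q E) : p.vec ≠ 0 := p.line.rep_nonzero

variable (n q) in
/-- the point of `ℙ(E)` given by a linear form -/
def PE.of (x : X) (l : Module.Dual ℂ (E x)) : PE n q E := ⟨x, mkD q x l⟩

theorem PE.base_of (x : X) (l : Module.Dual ℂ (E x)) : (PE.of n q x l).base = x := rfl

theorem PE.of_vec (p : PE n q E) : PE.of n q p.base p.vec = p := by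
  obtain ⟨x, l⟩ := p
  change (⟨x, mkD q x l.rep⟩ : PE n q E) = ⟨x, l⟩
  rw [mkD_of_ne l.rep_nonzero, Projectivization.mk_rep]

theorem PE.of_smul {x : X} {l : Module.Dual ℂ (E x)} (hl : l ≠ 0) {a : ℂ} (ha : a ≠ 0) :
    PE.of n q x (a • l) = PE.of n q x l := by
  unfold PE.of
  rw [mkD_of_ne hl, mkD_of_ne (smul_ne_zero ha hl)]
  congr 1
  rw [Projectivization.mk_eq_mk_iff']
  exact ⟨a, rfl⟩

theorem PE.vec_of {x : X} {l : Module.Dual ℂ (E x)} (hl : l ≠ 0) :
    ∃ a : ℂ, a ≠ 0 ∧ ((PE.of n q x l).vec : Module.Dual ℂ (E x)) = a • l := by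
  have h1 : ((PE.of n q x l).vec : Module.Dual ℂ (E x)) = (Projectivization.mk ℂ l hl).rep := by
    change (mkD q x l).rep = _
    rw [mkD_of_ne hl]
  obtain ⟨a, ha⟩ := Projectivization.exists_smul_eq_mk_rep ℂ l hl
  exact ⟨a, a.ne_zero, by rw [h1, ← ha]; rfl⟩

/-- homogeneous coordinates of a point in the dual frame of `t` -/
def cv (t : Trivialization (Cn (q + 1)) (π (Cn (q + 1)) E)) (p : PE n q E) : Cn (q + 1) :=
  co t p.base p.vec

variable (n) in
/-- the point with homogeneous coordinates `u` -/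
def pt (t : Trivialization (Cn (q + 1)) (π (Cn (q + 1)) E)) [MemTrivializationAtlas t] (x : X)
    (u : Cn (q + 1)) : PE n q E :=
  PE.of n q x (covec t x u)

section
variable {t : Trivialization (Cn (q + 1)) (π (Cn (q + 1)) E)} [MemTrivializationAtlas t] {x : X}

theorem base_pt (u : Cn (q + 1)) : (pt n t x u).base = x := rfl

theorem cv_of {l : Module.Dual ℂ (E x)} (hl : l ≠ 0) : ∃ a : ℂ, a ≠ 0 ∧
    ∀ t' : Trivialization (Cn (q + 1)) (π (Cn (q + 1)) E),
      cv t' (PE.of n q x l) = a • co t' x l := by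
  obtain ⟨a, ha, h⟩ := PE.vec_of (n := n) (q := q) hl
  refine ⟨a, ha, fun t' => ?_⟩
  rw [← co_smul, ← h]
  rfl

theorem cv_pt (hx : x ∈ t.baseSet) {u : Cn (q + 1)} (hu : u ≠ 0) : ∃ a : ℂ, a ≠ 0 ∧
    ∀ (t' : Trivialization (Cn (q + 1)) (π (Cn (q + 1)) E)) [MemTrivializationAtlas t'],
      x ∈ t'.baseSet → cv t' (pt n t x u) = a • (u ᵥ* tm t t' x) := by
  obtain ⟨a, ha, h⟩ := cv_of (n := n) (q := q) (covec_ne_zero hx hu)
  refine ⟨a, ha, fun t' _ hx' => ?_⟩
  rw [← co_covec hx hx']
  exact h t'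

theorem pt_smul (hx : x ∈ t.baseSet) {u : Cn (q + 1)} (hu : u ≠ 0) {a : ℂ} (ha : a ≠ 0) :
    pt n t x (a • u) = pt n t x u := by
  unfold pt
  rw [covec_smul, PE.of_smul (covec_ne_zero hx hu) ha]

theorem cv_ne_zero {p : PE n q E} (hp : p.base ∈ t.baseSet) : cv t p ≠ 0 :=
  co_ne_zero hp p.vec_ne_zero

theorem pt_cv {p : PE n q E} (hp : p.base ∈ t.baseSet) : pt n t p.base (cv t p) = p := by
  unfold pt cv
  rw [covec_co hp, PE.of_vec]

end

/-- the chart of `ℙ(E)` -/
def chart (α : Idx n q E) : PartialEquiv (PE n q E) (Cn (n + q)) where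
  toFun p := aff α.k (α.c p.base, cv α.t p)
  invFun y := pt n α.t (α.c.symm (fs q y)) (ins n α.k y)
  source := {p | p.base ∈ α.c.source ∧ p.base ∈ α.t.baseSet ∧ cv α.t p α.k ≠ 0}
  target := {y | fs q y ∈ dom α.c α.t}
  map_source' := by
    intro p hp
    change fs q (aff α.k (α.c p.base, cv α.t p)) ∈ dom α.c α.t
    rw [fs_aff]
    exact mem_dom hp.1 hp.2.1
  map_target' := by
    intro y hy
    refine ⟨α.c.map_target hy.1, hy.2, ?_⟩
    obtain ⟨a, ha, h⟩ := cv_pt (n := n) hy.2 (ins_ne_zero α.k y)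
    rw [h α.t hy.2, tm_self hy.2]
    simp [ins_self, ha]
  left_inv' := by
    intro p hp
    rw [fs_aff, ins_aff _ _ hp.2.2]
    dsimp only
    rw [α.c.left_inv hp.1, pt_smul hp.2.1 (cv_ne_zero hp.2.1) (inv_ne_zero hp.2.2), pt_cv hp.2.1]
  right_inv' := by
    intro y hy
    obtain ⟨a, ha, h⟩ := cv_pt (n := n) hy.2 (ins_ne_zero α.k y)
    rw [h α.t hy.2, tm_self hy.2, base_pt, α.c.right_inv hy.1, aff_smul _ _ _ ha, aff_ins]

theorem chart_apply (α : Idx n q E) (p : PE n q E) :
    chart α p = aff α.k (α.c p.base, cv α.t p) := rfl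

theorem chart_symm_apply (α : Idx n q E) (y : Cn (n + q)) :
    (chart α).symm y = pt n α.t (α.c.symm (fs q y)) (ins n α.k y) := rfl

theorem mem_chart_source' (α : Idx n q E) (p : PE n q E) : p ∈ (chart α).source ↔
    p.base ∈ α.c.source ∧ p.base ∈ α.t.baseSet ∧ cv α.t p α.k ≠ 0 := Iff.rfl

theorem mem_chart_target' (α : Idx n q E) (y : Cn (n + q)) : y ∈ (chart α).target ↔
    fs q y ∈ dom α.c α.t := Iff.rfl

/-- the homogeneous coordinates, in the frame of `t'`, of the point `(chart α).symm y` -/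
def tw (α : Idx n q E) (t' : Trivialization (Cn (q + 1)) (π (Cn (q + 1)) E))
    [MemTrivializationAtlas t'] (y : Cn (n + q)) : Cn (q + 1) :=
  ins n α.k y ᵥ* tm α.t t' (α.c.symm (fs q y))

theorem cv_chart_symm (α : Idx n q E) {y : Cn (n + q)} (hy : y ∈ (chart α).target) :
    ∃ a : ℂ, a ≠ 0 ∧ cv α.t ((chart α).symm y) α.k = a ∧
      ∀ (t' : Trivialization (Cn (q + 1)) (π (Cn (q + 1)) E)) [MemTrivializationAtlas t'],
        α.c.symm (fs q y) ∈ t'.baseSet → cv t' ((chart α).symm y) = a • tw α t' y := by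
  obtain ⟨a, ha, h⟩ := cv_pt (n := n) hy.2 (ins_ne_zero α.k y)
  refine ⟨a, ha, ?_, h⟩
  rw [chart_symm_apply, h α.t hy.2, tm_self hy.2]
  simp [ins_self]

theorem base_chart_symm (α : Idx n q E) (y : Cn (n + q)) :
    ((chart α).symm y).base = α.c.symm (fs q y) := rfl

theorem mem_trans_source (α β : Idx n q E) (y : Cn (n + q)) :
    y ∈ ((chart α).symm.trans (chart β)).source ↔ fs q y ∈ dom α.c α.t ∧
      α.c.symm (fs q y) ∈ β.c.source ∧ α.c.symm (fs q y) ∈ β.t.baseSet ∧ tw α β.t y β.k ≠ 0 := by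
  rw [PartialEquiv.trans_source, PartialEquiv.symm_source, mem_inter_iff, mem_preimage,
    mem_chart_target', mem_chart_source', base_chart_symm]
  refine and_congr_right fun hy => and_congr_right fun _ => and_congr_right fun h2 => ?_
  obtain ⟨a, ha, -, h⟩ := cv_chart_symm α hy
  rw [h β.t h2]
  simp [ha]

theorem trans_apply' (α β : Idx n q E) {y : Cn (n + q)} (hy : fs q y ∈ dom α.c α.t)
    (h2 : α.c.symm (fs q y) ∈ β.t.baseSet) :
    chart β ((chart α).symm y) = aff β.k (β.c (α.c.symm (fs q y)), tw α β.t y) := by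
  obtain ⟨a, ha, -, h⟩ := cv_chart_symm α hy
  rw [chart_apply, h β.t h2, aff_smul _ _ _ ha, base_chart_symm]

theorem continuousAt_base (α : Idx n q E) {y : Cn (n + q)} (hy : fs q y ∈ α.c.target) :
    ContinuousAt (fun y => α.c.symm (fs q y)) y :=
  (α.c.continuousAt_symm hy).comp contDiff_fs.continuous.continuousAt

variable [IsManifold 𝓘(ℂ, Cn n) ω X] [ContMDiffVectorBundle ω (Cn (q + 1)) E 𝓘(ℂ, Cn n)]

theorem contDiffAt_tw (α : Idx n q E) {t' : Trivialization (Cn (q + 1)) (π (Cn (q + 1)) E)}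
    [MemTrivializationAtlas t'] {y : Cn (n + q)} (hy : fs q y ∈ dom α.c α.t)
    (h2 : α.c.symm (fs q y) ∈ t'.baseSet) : ContDiffAt ℂ ω (tw α t') y :=
  contDiffAt_vecMul_tm α.hc contDiff_fs.contDiffAt (contDiff_ins α.k).contDiffAt hy.1 hy.2 h2

theorem isOpen_trans_source (α β : Idx n q E) :
    IsOpen ((chart α).symm.trans (chart β)).source := by
  refine isOpen_iff_mem_nhds.2 fun y hy => ?_
  rw [mem_trans_source] at hy
  obtain ⟨h1, h2, h3, h4⟩ := hy
  have e1 : ∀ᶠ y' in 𝓝 y, fs q y' ∈ dom α.c α.t :=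
    contDiff_fs.continuous.continuousAt.eventually_mem ((isOpen_dom _ _).mem_nhds h1)
  have e2 := (continuousAt_base α h1.1).eventually_mem (β.c.open_source.mem_nhds h2)
  have e3 := (continuousAt_base α h1.1).eventually_mem (β.t.open_baseSet.mem_nhds h3)
  have e4 : ∀ᶠ y' in 𝓝 y, tw α β.t y' β.k ≠ 0 :=
    ((continuous_apply β.k).continuousAt.comp (contDiffAt_tw α h1 h3).continuousAt).eventually_ne h4
  filter_upwards [e1, e2, e3, e4] with y' f1 f2 f3 f4
  rw [mem_trans_source]
  exact ⟨f1, f2, f3, f4⟩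

theorem contDiffAt_trans (α β : Idx n q E) {y : Cn (n + q)}
    (hy : y ∈ ((chart α).symm.trans (chart β)).source) :
    ContDiffAt ℂ ω ((chart α).symm.trans (chart β)) y := by
  have hev : ∀ᶠ y' in 𝓝 y, y' ∈ ((chart α).symm.trans (chart β)).source :=
    (isOpen_trans_source α β).mem_nhds hy
  rw [mem_trans_source] at hy
  obtain ⟨h1, h2, h3, h4⟩ := hy
  have h5 : ContDiffAt ℂ ω (fun z => β.c (α.c.symm z)) (fs q y) := by
    have := P272.K.transition (e := α.c) (e' := β.c) (x := α.c.symm (fs q y))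
      ⟨α.hc, α.c.map_target h1.1⟩ ⟨β.hc, h2⟩
    rwa [α.c.right_inv h1.1] at this
  have h6 : ContDiffAt ℂ ω (fun y => aff β.k (β.c (α.c.symm (fs q y)), tw α β.t y)) y :=
    ContDiffAt.comp (g := aff β.k) (f := fun y => (β.c (α.c.symm (fs q y)), tw α β.t y)) y
      (contDiffAt_aff β.k (p := (β.c (α.c.symm (fs q y)), tw α β.t y)) h4)
      ((h5.comp y contDiff_fs.contDiffAt).prodMk (contDiffAt_tw α h1 h3))
  refine h6.congr_of_eventuallyEq ?_
  filter_upwards [hev] with y' hy'
  rw [mem_trans_source] at hy'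
  exact trans_apply' α β hy'.1 hy'.2.2.1

theorem exists_idx (p : PE n q E) : ∃ α : Idx n q E, p ∈ (chart α).source := by
  have h1 := mem_baseSet_trivializationAt (Cn (q + 1)) E p.base
  obtain ⟨k, hk⟩ := Function.ne_iff.1 (cv_ne_zero h1)
  exact ⟨⟨chartAt (Cn n) p.base, chart_mem_atlas _ _, trivializationAt (Cn (q + 1)) E p.base,
    inferInstance, k⟩, mem_chart_source _ _, h1, hk⟩

variable (n q E) in
/-- the atlas -/
def core : ChartedSpaceCore (Cn (n + q)) (PE n q E) where
  atlas := range chart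
  chartAt p := chart (exists_idx p).choose
  mem_chart_source p := (exists_idx p).choose_spec
  chart_mem_atlas p := ⟨_, rfl⟩
  open_source := by
    rintro _ _ ⟨α, rfl⟩ ⟨β, rfl⟩
    exact isOpen_trans_source α β
  continuousOn_toFun := by
    rintro _ _ ⟨α, rfl⟩ ⟨β, rfl⟩ y hy
    exact (contDiffAt_trans α β hy).continuousAt.continuousWithinAt

instance instTopPE : TopologicalSpace (PE n q E) := (core n q E).toTopologicalSpace

instance instChartedPE : ChartedSpace (Cn (n + q)) (PE n q E) := (core n q E).toChartedSpace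

/-- the charts as partial homeomorphisms -/
def och (α : Idx n q E) : OpenPartialHomeomorph (PE n q E) (Cn (n + q)) :=
  (core n q E).openPartialHomeomorph (chart α) ⟨α, rfl⟩

theorem och_apply (α : Idx n q E) (p : PE n q E) : och α p = chart α p := rfl

theorem och_symm_apply (α : Idx n q E) (y : Cn (n + q)) : (och α).symm y = (chart α).symm y := rfl

theorem och_source (α : Idx n q E) : (och α).source = (chart α).source := rfl

theorem och_target (α : Idx n q E) : (och α).target = (chart α).target := rfl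

theorem mem_atlas_iff (e : OpenPartialHomeomorph (PE n q E) (Cn (n + q))) :
    e ∈ atlas (Cn (n + q)) (PE n q E) ↔ ∃ α, och α = e := by
  change e ∈ ⋃ (e : PartialEquiv (PE n q E) (Cn (n + q))) (he : e ∈ (core n q E).atlas),
    {(core n q E).openPartialHomeomorph e he} ↔ _
  simp only [mem_iUnion, mem_singleton_iff]
  constructor
  · rintro ⟨_, ⟨α, rfl⟩, rfl⟩
    exact ⟨α, rfl⟩
  · rintro ⟨α, rfl⟩
    exact ⟨chart α, ⟨α, rfl⟩, rfl⟩

theorem och_mem_atlas (α : Idx n q E) : och α ∈ atlas (Cn (n + q)) (PE n q E) :=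
  (mem_atlas_iff _).2 ⟨α, rfl⟩

instance instManifoldPE : IsManifold 𝓘(ℂ, Cn (n + q)) ω (PE n q E) := by
  refine isManifold_of_contDiffOn _ _ _ fun e e' he he' => ?_
  obtain ⟨α, rfl⟩ := (mem_atlas_iff e).1 he
  obtain ⟨β, rfl⟩ := (mem_atlas_iff e').1 he'
  intro y hy
  exact (contDiffAt_trans α β hy.1).contDiffWithinAt

/-- continuity can be checked in the charts -/
theorem continuousAt_of_chart {Y : Type*} [TopologicalSpace Y] {f : PE n q E → Y} {p : PE n q E}
    (α : Idx n q E) (hp : p ∈ (chart α).source)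
    (h : ContinuousAt (fun y => f ((chart α).symm y)) (chart α p)) : ContinuousAt f p := by
  have h1 : ContinuousAt (fun p => f ((och α).symm (och α p))) p :=
    ContinuousAt.comp (g := fun y => f ((och α).symm y)) h ((och α).continuousAt hp)
  refine h1.congr ?_
  filter_upwards [(och α).open_source.mem_nhds hp] with p' hp'
  rw [(och α).left_inv hp']

theorem continuous_base : Continuous (PE.base : PE n q E → X) := by
  refine continuous_iff_continuousAt.2 fun p => ?_
  obtain ⟨α, hα⟩ := exists_idx p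
  refine continuousAt_of_chart α hα ?_
  exact continuousAt_base α ((chart α).map_source hα).1

/-- a continuous function of the line -/
def wt (t : Trivialization (Cn (q + 1)) (π (Cn (q + 1)) E)) (k : Fin (q + 1)) (p : PE n q E) : ℝ :=
  ‖cv t p k‖ / ‖cv t p‖

theorem continuousAt_wt (t : Trivialization (Cn (q + 1)) (π (Cn (q + 1)) E))
    [MemTrivializationAtlas t] (k : Fin (q + 1)) {p : PE n q E} (hp : p.base ∈ t.baseSet) :
    ContinuousAt (wt t k) p := by
  obtain ⟨α, hα⟩ := exists_idx p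
  refine continuousAt_of_chart α hα ?_
  have h1 := (chart α).map_source hα
  have h2 : α.c.symm (fs q (chart α p)) ∈ t.baseSet := by
    rw [← base_chart_symm, (chart α).left_inv hα]; exact hp
  have h3 := (contDiffAt_tw α h1 h2).continuousAt
  have h4 : tw α t (chart α p) ≠ 0 := by
    obtain ⟨a, ha, -, h⟩ := cv_chart_symm α h1
    have h5 := h t h2
    rw [(chart α).left_inv hα] at h5
    intro h0
    rw [h0, smul_zero] at h5
    exact cv_ne_zero hp h5
  have h5 : ContinuousAt (fun y => ‖tw α t y k‖ / ‖tw α t y‖) (chart α p) :=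
    ((continuous_apply k).continuousAt.comp h3).norm.div h3.norm (norm_ne_zero_iff.2 h4)
  refine h5.congr ?_
  have e1 : ∀ᶠ y' in 𝓝 (chart α p), fs q y' ∈ dom α.c α.t :=
    contDiff_fs.continuous.continuousAt.eventually_mem ((isOpen_dom _ _).mem_nhds h1)
  have e3 := (continuousAt_base α h1.1).eventually_mem (t.open_baseSet.mem_nhds h2)
  filter_upwards [e1, e3] with y f1 f3
  obtain ⟨a, ha, -, h⟩ := cv_chart_symm α f1
  unfold wt
  rw [h t f3, Pi.smul_apply, norm_smul, norm_smul, mul_div_mul_left _ _ (norm_ne_zero_iff.2 ha)]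

theorem separated_of_continuousAt {Z Y : Type*} [TopologicalSpace Z] [TopologicalSpace Y]
    [T2Space Y] {f : Z → Y} {p p' : Z} (h : ContinuousAt f p) (h' : ContinuousAt f p')
    (hne : f p ≠ f p') : ∃ u v : Set Z, IsOpen u ∧ IsOpen v ∧ p ∈ u ∧ p' ∈ v ∧ Disjoint u v := by
  obtain ⟨U, V, hU, hV, h1, h2, hd⟩ := t2_separation hne
  obtain ⟨u, hu1, hu2, hu3⟩ := mem_nhds_iff.1 (h.preimage_mem_nhds (hU.mem_nhds h1))
  obtain ⟨v, hv1, hv2, hv3⟩ := mem_nhds_iff.1 (h'.preimage_mem_nhds (hV.mem_nhds h2))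
  exact ⟨u, v, hu2, hv2, hu3, hv3, (hd.preimage f).mono hu1 hv1⟩

instance instT2PE [T2Space X] : T2Space (PE n q E) := by
  refine ⟨fun p p' hne => ?_⟩
  by_cases hb : p.base = p'.base
  · obtain ⟨α, hα⟩ := exists_idx p
    by_cases h2 : cv α.t p' α.k = 0
    · refine separated_of_continuousAt (continuousAt_wt α.t α.k hα.2.1)
        (continuousAt_wt α.t α.k (hb ▸ hα.2.1)) ?_
      unfold wt
      rw [h2, norm_zero, zero_div]
      exact div_ne_zero (norm_ne_zero_iff.2 hα.2.2) (norm_ne_zero_iff.2 (cv_ne_zero hα.2.1))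
    · have h3 : p' ∈ (chart α).source := ⟨hb ▸ hα.1, hb ▸ hα.2.1, h2⟩
      exact separated_of_continuousAt ((och α).continuousAt hα) ((och α).continuousAt h3)
        fun h => hne ((och α).injOn hα h3 h)
  · exact separated_of_continuousAt continuous_base.continuousAt continuous_base.continuousAt hb

theorem isCompact_over (c : OpenPartialHomeomorph X (Cn n)) (hc : c ∈ atlas (Cn n) X)
    (t : Trivialization (Cn (q + 1)) (π (Cn (q + 1)) E)) [ht : MemTrivializationAtlas t]
    {K : Set X} (hK : IsCompact K) (h1 : K ⊆ c.source) (h2 : K ⊆ t.baseSet) :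
    IsCompact {p : PE n q E | p.base ∈ K} := by
  have hcK : IsCompact (c '' K) := hK.image_of_continuousOn (c.continuousOn.mono h1)
  let B : Set (Cn (n + q)) := (fun z : Cn n × Cn q => (Fin.append z.1 z.2 : Cn (n + q))) ''
    ((c '' K) ×ˢ Metric.closedBall 0 1)
  have hB : IsCompact B := by
    refine (hcK.prod (isCompact_closedBall 0 1)).image ?_
    refine continuous_pi fun i => ?_
    refine Fin.addCases (fun i => ?_) (fun j => ?_) i
    · simp only [Fin.append_left]; fun_prop
    · simp only [Fin.append_right]; fun_prop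
  have hfs : ∀ y ∈ B, ∃ x ∈ K, fs q y = c x := by
    rintro _ ⟨⟨z, w⟩, ⟨⟨x, hx, rfl⟩, -⟩, rfl⟩
    refine ⟨x, hx, ?_⟩
    funext i; simp [fs]
  have hsub : {p : PE n q E | p.base ∈ K} = ⋃ k, (och ⟨c, hc, t, ht, k⟩).symm '' B := by
    ext p
    simp only [mem_setOf_eq, mem_iUnion]
    constructor
    · intro hp
      obtain ⟨k, -, hk⟩ := Finset.exists_max_image Finset.univ (fun k => ‖cv t p k‖)
        ⟨0, Finset.mem_univ _⟩
      have hk0 : cv t p k ≠ 0 := by
        intro h0
        apply cv_ne_zero (h2 hp)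
        funext a
        have := hk a (Finset.mem_univ _)
        rw [h0, norm_zero] at this
        exact norm_le_zero_iff.1 this
      have hs : p ∈ (och ⟨c, hc, t, ht, k⟩).source := ⟨h1 hp, h2 hp, hk0⟩
      refine ⟨k, och ⟨c, hc, t, ht, k⟩ p, ?_, (och _).left_inv hs⟩
      refine ⟨(c p.base, fun j => cv t p (k.succAbove j) / cv t p k), ⟨⟨_, hp, rfl⟩, ?_⟩, rfl⟩
      rw [mem_closedBall_zero_iff, pi_norm_le_iff_of_nonneg zero_le_one]
      intro j
      rw [norm_div]
      exact div_le_one_of_le₀ (hk _ (Finset.mem_univ _)) (norm_nonneg _)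
    · rintro ⟨k, y, hy, rfl⟩
      obtain ⟨x, hx, h⟩ := hfs y hy
      rw [och_symm_apply, base_chart_symm]
      change c.symm (fs q y) ∈ K
      rw [h, c.left_inv (h1 hx)]
      exact hx
  rw [hsub]
  refine isCompact_iUnion fun k => hB.image_of_continuousOn ?_
  refine (och ⟨c, hc, t, ht, k⟩).continuousOn_symm.mono fun y hy => ?_
  obtain ⟨x, hx, h⟩ := hfs y hy
  change fs q y ∈ dom c t
  rw [h]
  exact mem_dom (h1 hx) (h2 hx)

instance instCompactPE [CompactSpace X] [T2Space X] : CompactSpace (PE n q E) := by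
  have h1 : ∀ x : X, ∃ K : Set X, IsCompact K ∧ x ∈ interior K ∧
      K ⊆ (chartAt (Cn n) x).source ∩ (trivializationAt (Cn (q + 1)) E x).baseSet := fun x =>
    exists_compact_subset ((chartAt (Cn n) x).open_source.inter
      (trivializationAt (Cn (q + 1)) E x).open_baseSet)
      ⟨mem_chart_source _ _, mem_baseSet_trivializationAt _ _ _⟩
  choose K hK hx hsub using h1
  obtain ⟨s, hs⟩ := isCompact_univ.elim_finite_subcover (fun x => interior (K x))
    (fun _ => isOpen_interior) fun x _ => mem_iUnion.2 ⟨x, hx x⟩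
  refine ⟨?_⟩
  have h2 : (univ : Set (PE n q E)) = ⋃ x ∈ s, {p : PE n q E | p.base ∈ K x} := by
    refine (eq_univ_of_forall fun p => ?_).symm
    obtain ⟨x, hx1, hx2⟩ := mem_iUnion₂.1 (hs (mem_univ p.base))
    have hx3 : p.base ∈ K x := interior_subset hx2
    exact mem_iUnion₂.2 ⟨x, hx1, hx3⟩
  rw [h2]
  exact s.isCompact_biUnion fun x _ => isCompact_over _ (chart_mem_atlas _ x) _ (hK x)
    (fun y hy => (hsub x hy).1) fun y hy => (hsub x hy).2

end Vale.Agent.P296Z
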