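import Vale.Agent.P296Z.Kod
import Vale.Agent.P300.H232.Jac

/-!
# P296Z: the abelian variety `ℂⁿ/ℤ[i]ⁿ` as a complex manifold; the surface is projective
-/

set_option linter.all false

noncomputable section

namespace Vale.Agent.P296Z

open Bundle Matrix Filter Set Metric
open scoped Manifold ContDiff Topology LinearAlgebra.Projectivization ComplexOrder
open Vale.Agent.P272.K Vale.Agent.P299.H800.KOD

variable {n : ℕ}

/-- the torus -/
def Tor (n : ℕ) : Type := Cn n ⧸ P296.gaussLattice n

instance instTopTor : TopologicalSpace (Tor n) :=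
  inferInstanceAs (TopologicalSpace (Cn n ⧸ P296.gaussLattice n))

/-- the projection -/
def pr (z : Cn n) : Tor n := (QuotientAddGroup.mk z : Cn n ⧸ P296.gaussLattice n)

theorem pr_eq {z w : Cn n} : pr z = pr w ↔ w - z ∈ P296.gaussLattice n := by
  have h : pr z = pr w ↔ -z + w ∈ P296.gaussLattice n := QuotientAddGroup.eq
  rw [h, neg_add_eq_sub]

theorem continuous_pr : Continuous (pr : Cn n → Tor n) := QuotientAddGroup.continuous_mk

theorem isOpenMap_pr : IsOpenMap (pr : Cn n → Tor n) := QuotientAddGroup.isOpenMap_coe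

theorem pr_surjective : Function.Surjective (pr : Cn n → Tor n) := QuotientAddGroup.mk_surjective

theorem lat_zero {l : Cn n} (hl : l ∈ P296.gaussLattice n) (h : ‖l‖ < 1) : l = 0 := by
  funext k
  exact P296.Theta.IsLat.zero_of_norm (hl k) ((norm_le_pi_norm l k).trans_lt h)

theorem injOn_pr (z0 : Cn n) : InjOn (pr : Cn n → Tor n) (ball z0 (1 / 4)) := by
  intro z hz w hw h
  have h1 := lat_zero (pr_eq.1 h) (by
    rw [mem_ball, dist_eq_norm] at hz hw
    have h2 : w - z = (w - z0) - (z - z0) := by abel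
    rw [h2]
    linarith [norm_sub_le (w - z0) (z - z0)])
  exact (sub_eq_zero.1 h1).symm

/-- the charts -/
def ch (z0 : Cn n) : OpenPartialHomeomorph (Tor n) (Cn n) :=
  (OpenPartialHomeomorph.ofContinuousOpen ((injOn_pr z0).toPartialEquiv pr _)
    continuous_pr.continuousOn isOpenMap_pr isOpen_ball).symm

theorem ch_symm (z0 z : Cn n) : (ch z0).symm z = pr z := rfl

theorem ch_target (z0 : Cn n) : (ch z0).target = ball z0 (1 / 4) := rfl

theorem pr_ch {z0 : Cn n} {x : Tor n} (h : x ∈ (ch z0).source) : pr (ch z0 x) = x :=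
  (ch z0).left_inv h

theorem ch_pr {z0 z : Cn n} (h : z ∈ ball z0 (1 / 4)) : ch z0 (pr z) = z :=
  (ch z0).right_inv h

theorem pr_mem_source {z0 z : Cn n} (h : z ∈ ball z0 (1 / 4)) : pr z ∈ (ch z0).source :=
  (ch z0).map_target h

theorem pr_mem_self (z : Cn n) : pr z ∈ (ch z).source :=
  pr_mem_source (mem_ball_self (by norm_num))

theorem ch_pr_self (z : Cn n) : ch z (pr z) = z := ch_pr (mem_ball_self (by norm_num))

theorem sub_mem {z0 z : Cn n} (h : pr z ∈ (ch z0).source) :
    ch z0 (pr z) - z ∈ P296.gaussLattice n :=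
  pr_eq.1 (pr_ch h).symm

/-- the charts are locally translations by lattice vectors -/
theorem ch_pr_eventually {z0 z : Cn n} (h : pr z ∈ (ch z0).source) :
    ∀ᶠ w in 𝓝 z, pr w ∈ (ch z0).source ∧ ch z0 (pr w) = w + (ch z0 (pr z) - z) := by
  have h1 : ∀ᶠ w in 𝓝 z, w + (ch z0 (pr z) - z) ∈ ball z0 (1 / 4) := by
    refine (continuous_id.add continuous_const).continuousAt.eventually_mem
      (isOpen_ball.mem_nhds ?_)
    change z + (ch z0 (pr z) - z) ∈ _
    rw [add_sub_cancel]
    exact (ch z0).map_source h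
  filter_upwards [h1] with w hw
  have h2 : pr w = pr (w + (ch z0 (pr z) - z)) := by
    rw [pr_eq, add_sub_cancel_left]; exact sub_mem h
  rw [h2]
  exact ⟨pr_mem_source hw, ch_pr hw⟩

instance instChartedTor : ChartedSpace (Cn n) (Tor n) where
  atlas := range ch
  chartAt x := ch (pr_surjective x).choose
  mem_chart_source x := by
    have h := pr_mem_self (pr_surjective x).choose
    rwa [(pr_surjective x).choose_spec] at h
  chart_mem_atlas x := ⟨_, rfl⟩

theorem ch_mem (z0 : Cn n) : ch z0 ∈ atlas (Cn n) (Tor n) := ⟨z0, rfl⟩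

theorem contDiffAt_ch_pr {z0 z : Cn n} (h : pr z ∈ (ch z0).source) :
    ContDiffAt ℂ ω (fun w => ch z0 (pr w)) z :=
  (contDiffAt_id.add contDiffAt_const).congr_of_eventuallyEq
    ((ch_pr_eventually h).mono fun _ hw => hw.2)

instance instManifoldTor : IsManifold 𝓘(ℂ, Cn n) ω (Tor n) := by
  refine isManifold_of_contDiffOn _ _ _ ?_
  rintro _ _ ⟨z0, rfl⟩ ⟨z1, rfl⟩ y hy
  exact (contDiffAt_ch_pr (z0 := z1) (z := y) hy.1.2).contDiffWithinAt

instance instT2Tor : T2Space (Tor n) := by
  haveI : DiscreteTopology (P296.gaussLattice n) := by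
    refine discreteTopology_of_isOpen_singleton_zero ?_
    have h : ({0} : Set (P296.gaussLattice n)) = Subtype.val ⁻¹' ball 0 1 := by
      ext l
      simp only [mem_singleton_iff, mem_preimage, mem_ball, dist_zero_right]
      exact ⟨fun h => by rw [h]; simp, fun h => Subtype.ext (lat_zero l.2 h)⟩
    rw [h]
    exact isOpen_ball.preimage continuous_subtype_val
  haveI : IsClosed (P296.gaussLattice n : Set (Cn n)) := AddSubgroup.isClosed_of_discrete
  exact inferInstanceAs (T2Space (Cn n ⧸ P296.gaussLattice n))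

instance instCompactTor : CompactSpace (Tor n) := by
  refine ⟨?_⟩
  have h : (univ : Set (Tor n)) = pr '' closedBall 0 1 := by
    symm
    refine eq_univ_of_forall fun x => ?_
    obtain ⟨z, rfl⟩ := pr_surjective x
    choose l hl hl' using fun k => P296.Theta.exists_lat (z k)
    refine ⟨z - l, ?_, ?_⟩
    · rw [mem_closedBall_zero_iff, pi_norm_le_iff_of_nonneg zero_le_one]
      intro k
      exact (hl' k).trans (by norm_num)
    · rw [pr_eq, sub_sub_cancel]
      exact hl
  rw [h]
  exact (isCompact_closedBall 0 1).image continuous_pr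

instance instConnTor : ConnectedSpace (Tor n) := pr_surjective.connectedSpace continuous_pr

/-- A compact surface with an ample line bundle is a smooth projective variety. -/
theorem isSmoothProjective_of_ample {X : Type} [TopologicalSpace X] [ChartedSpace (Cn 2) X]
    [IsManifold 𝓘(ℂ, Cn 2) ω X] [T2Space X] [CompactSpace X] {L : ALB 2 X} (h : Ample L) :
    IsSmoothProjective 2 X := by
  obtain ⟨m, -, N, s, hs⟩ := h
  have himm : P300.IsProjectiveImmersion (Fin 2 → ℂ) fun x : X =>
      Projectivization.mk ℂ (fun i : Fin (N + 1) => (s i).val x) (hs.ne_zero x) := by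
    intro x
    have hat : ∀ y ∈ (chartAt (Cn 2) x).source, At (chartAt (Cn 2) x) y :=
      fun y hy => ⟨chart_mem_atlas _ _, hy⟩
    have hsm : ∀ y ∈ (chartAt (Cn 2) x).source, ContMDiffAt 𝓘(ℂ, Cn 2) 𝓘(ℂ, Cn (N + 1)) ω
        (fun y => cf s (chartAt (Cn 2) x) (chartAt (Cn 2) x y)) y := fun y hy =>
      (contDiffAt_cf s (hat y hy)).contMDiffAt.comp y (chart_contMDiffAt (hat y hy))
    refine ⟨(chartAt (Cn 2) x).source, fun y => cf s (chartAt (Cn 2) x) (chartAt (Cn 2) x y),
      (chartAt (Cn 2) x).open_source, mem_chart_source _ _,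
      fun y hy => (hsm y hy).contMDiffWithinAt,
      fun y hy => ⟨cf_ne_zero hs (hat y hy), mk_cf hs (hat y hy)⟩, fun y hy v a hv => ?_⟩
    have h1 := (P300.Emb.mfderiv_chartV hy ((hsm y hy).mdifferentiableAt (by simp)) v).2
    have h2 : (fun z => cf s (chartAt (Cn 2) x) (chartAt (Cn 2) x ((chartAt (Cn 2) x).symm z)))
        =ᶠ[𝓝 (chartAt (Cn 2) x y)] cf s (chartAt (Cn 2) x) := by
      filter_upwards [(hat y hy).nhds_target] with z hz
      rw [(chartAt (Cn 2) x).right_inv hz]
    rw [h2.fderiv_eq] at h1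
    have h3 := cf_imm hs (hat y hy) (h1.symm.trans hv)
    exact (mdifferentiable_chart (I := 𝓘(ℂ, Cn 2)) x).mfderiv_injective hy
      (h3.trans (map_zero _).symm)
  obtain ⟨S, h1, h2⟩ := P300.H232.isNonsingularAlgebraic_range hs.injective himm
  refine ⟨N, _, hs.injective, fun x => ?_, S, h1, fun z hz => ⟨(h2 z hz).1, fun h => ?_⟩⟩
  · have hat : ∀ z ∈ (chartAt (Cn 2) x).target,
        At (chartAt (Cn 2) x) ((chartAt (Cn 2) x).symm z) :=
      fun z hz => At.of_target (chart_mem_atlas _ _) hz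
    refine ⟨chartAt (Cn 2) x, chart_mem_atlas _ _, (chartAt (Cn 2) x).target,
      cf s (chartAt (Cn 2) x), mem_chart_source _ _, mem_chart_target _ _,
      (chartAt (Cn 2) x).open_target, subset_rfl, fun z hz => ?_, fun z hz => ⟨?_, fun v a hv => ?_⟩⟩
    · have h3 := contDiffAt_cf s (hat z hz)
      rw [(chartAt (Cn 2) x).right_inv hz] at h3
      exact (h3.differentiableAt (by simp)).differentiableWithinAt
    · have h3 : ∃ h : cf s (chartAt (Cn 2) x) (chartAt (Cn 2) x ((chartAt (Cn 2) x).symm z)) ≠ 0,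
          _ = Projectivization.mk ℂ _ h := ⟨cf_ne_zero hs (hat z hz), mk_cf hs (hat z hz)⟩
      rw [(chartAt (Cn 2) x).right_inv hz] at h3
      exact h3
    · refine cf_imm hs (hat z hz) (a := a) ?_
      rw [(chartAt (Cn 2) x).right_inv hz]
      exact hv
  have h3 : jacobianKernel S z = P300.jacobianKernel S z := by
    ext v
    rw [P300.mem_jacobianKernel]
    simp [jacobianKernel, LinearMap.sum_apply, mul_comm]
  rw [h3]
  exact (h2 z hz).2 h

/-- a positive line bundle on the abelian surface -/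
def thetaALB : ALB 2 (Tor 2) where
  tr e e' x := P296.eAut 0 (e x - e' x) (e' x)
  hol := by
    rintro _ _ x ⟨⟨z0, rfl⟩, h⟩ ⟨⟨z1, rfl⟩, h'⟩
    have h1 : pr (ch z0 x) ∈ (ch z0).source := by rw [pr_ch h]; exact h
    have h2 : pr (ch z0 x) ∈ (ch z1).source := by rw [pr_ch h]; exact h'
    have h3 : ContDiffAt ℂ ω (fun z => P296.eAut 0 (ch z0 x - ch z1 x) (ch z1 (pr z))) (ch z0 x) :=
      (P268.analyticAt_of_differentiableOn isOpen_univ
        (P296.Bdl.differentiable_eAut 0 _).differentiableOn (mem_univ _)).contDiffAt.comp _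
        (contDiffAt_ch_pr h2)
    refine h3.congr_of_eventuallyEq ?_
    filter_upwards [ch_pr_eventually h1, ch_pr_eventually h2] with w hw hw'
    rw [ch_symm]
    congr 1
    rw [hw.2, hw'.2, pr_ch h]
    abel
  ne _ _ _ _ _ := P296.Bdl.eAut_ne_zero _ _ _
  coc := by
    rintro _ _ _ x ⟨⟨z0, rfl⟩, h⟩ ⟨⟨z1, rfl⟩, h'⟩ ⟨⟨z2, rfl⟩, h''⟩
    have h1 : ch z0 x - ch z1 x ∈ P296.gaussLattice 2 :=
      pr_eq.1 ((pr_ch h').trans (pr_ch h).symm)
    have h2 : ch z1 x - ch z2 x ∈ P296.gaussLattice 2 :=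
      pr_eq.1 ((pr_ch h'').trans (pr_ch h').symm)
    have h3 := P296.Bdl.eAut_add (σ := 0) h1 h2 (ch z2 x)
    rw [sub_add_sub_cancel, add_sub_cancel, Int.cast_zero] at h3
    rw [h3, mul_comm]

theorem ample_theta : Ample thetaALB := by
  have h0 : P296.phi 0 = P296.quadIm (6 * Real.pi) 0 (8 * Real.pi) 0 := by
    funext z
    simp only [P296.phi, P296.quadIm]
    ring
  refine kodaira 2 (Tor 2) thetaALB (fun _ => P296.phi 0) ⟨fun e x _ => ?_, fun e e' x _ _ => ?_⟩
    fun e x _ => ?_
  · rw [h0]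
    exact (P296.contDiff_quadIm _ _ _ _).contDiffAt
  · change _ = _ + Real.log (‖P296.eAut 0 (e x - e' x) (e' x)‖ ^ 2)
    rw [P296.norm_eAut, Real.log_exp, add_sub_cancel, add_sub_cancel]
  · rw [h0]
    refine cHess_posDef (P296.contDiff_quadIm _ _ _ _).contDiffAt fun ξ hξ => ?_
    refine P296.levi_quadIm_pos (by positivity) ?_ _ ξ hξ
    have := Real.pi_pos
    nlinarith

theorem isSmoothProjective_tor : IsSmoothProjective 2 (Tor 2) :=
  isSmoothProjective_of_ample ample_theta

end Vale.Agent.P296Z
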